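import Vale.Agent.P079.H709.Quot
import Mathlib.Analysis.Normed.Lp.lpSpace

set_option linter.all false

open Filter Topology Set Pointwise ZeroAtInfty

namespace Vale.Agent.P079.H709

variable {X : Type*} [NormedAddCommGroup X] [NormedSpace ℝ X]

theorem span_sub_le (K : Set X) : Submodule.span ℝ (K - K) ≤ Submodule.span ℝ K := by
  rw [Submodule.span_le]
  rintro _ ⟨x, hx, y, hy, rfl⟩
  exact Submodule.sub_mem _ (Submodule.subset_span hx) (Submodule.subset_span hy)

/-- Null sequences on differences are null on the closed span. -/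
theorem tendsto_span {K : Set X} (ψ : ℕ → StrongDual ℝ X) (hψ : ∀ i, ‖ψ i‖ ≤ 1)
    (h : ∀ x ∈ K, ∀ y ∈ K, Tendsto (fun i => ψ i (x - y)) atTop (𝓝 0)) (y : X)
    (hy : y ∈ (Submodule.span ℝ (K - K)).topologicalClosure) :
    Tendsto (fun i => ψ i y) atTop (𝓝 0) := by
  refine tendsto_zero_closure_span (K - K) ψ hψ ?_ y hy
  rintro _ ⟨a, ha, b, hb, rfl⟩
  exact h a ha b hb

/-- A fixed point free nonexpansive map on a weakly compact convex set gives almost isometric
quotient maps from separable subspaces onto `c_0`. -/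
theorem c0_quotient [CompleteSpace X] {C : Set X} (hC : IsCompact (toWeakSpace ℝ X '' C))
    (hne : C.Nonempty) (hco : Convex ℝ C) {T : X → X} (hTm : MapsTo T C C)
    (hT : ∀ x ∈ C, ∀ y ∈ C, ‖T x - T y‖ ≤ ‖x - y‖) (hcon : ∀ x ∈ C, T x ≠ x)
    {η : ℝ} (hη : 0 < η) :
    ∃ Y : Submodule ℝ X, IsClosed (Y : Set X) ∧ TopologicalSpace.IsSeparable (Y : Set X) ∧
      Y ≤ (Submodule.span ℝ C).topologicalClosure ∧
      ∃ S : Y →L[ℝ] C₀(ℕ, ℝ), ‖S‖ ≤ 1 ∧ ∀ a : C₀(ℕ, ℝ), ∃ y : Y, S y = a ∧ ‖y‖ ≤ (1 + η) * ‖a‖ := by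
  have hε : 0 < η / (2 * (1 + η)) := by positivity
  obtain ⟨K, hKC, hKne, hKsep, ψ, hψ, hnull, hpat⟩ := dichotomy hC hne hco hTm hT hcon hε
  set Y : Submodule ℝ X := (Submodule.span ℝ (K - K)).topologicalClosure with hYdef
  have hYcl : IsClosed (Y : Set X) := Submodule.isClosed_topologicalClosure _
  have hYn : ∀ y ∈ Y, Tendsto (fun i => ψ i y) atTop (𝓝 0) := tendsto_span ψ hψ hnull
  refine ⟨Y, hYcl, ?_, ?_, toC0 ψ hψ Y hYn, toC0_norm ψ hψ Y hYn, ?_⟩
  · have h1 : TopologicalSpace.IsSeparable (Submodule.span ℝ K : Set X) := hKsep.span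
    have h2 : (Y : Set X) ⊆ closure (Submodule.span ℝ K : Set X) := by
      rw [hYdef, Submodule.topologicalClosure_coe]
      exact closure_mono (span_sub_le K)
    exact h1.closure.mono h2
  · rw [hYdef]
    exact Submodule.topologicalClosure_mono ((span_sub_le K).trans (Submodule.span_mono hKC))
  · refine onto_c0 ψ hψ Y hYcl hYn hη ?_
    intro θ N
    obtain ⟨g, hg1, hg2, hg3⟩ := hpat θ N
    exact ⟨g, hg1, Submodule.le_topologicalClosure _ hg2, hg3⟩

section L1

/-- The embedding of `l_1` spanned by the functionals. -/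
theorem l1_embedding (ψ : ℕ → StrongDual ℝ X) (hψ : ∀ i, ‖ψ i‖ ≤ 1) {ε : ℝ} (hε1 : ε < 1)
    (hpat : ∀ (θ : ℕ → Bool) (N : ℕ), ∃ g : X, ‖g‖ ≤ 1 ∧
      ∀ i ≤ N, 1 - ε < (if θ i = true then (1 : ℝ) else -1) * ψ i g) :
    ∃ j : lp (fun _ : ℕ => ℝ) 1 →L[ℝ] StrongDual ℝ X,
      (∀ a, ‖j a‖ ≤ ‖a‖) ∧ ∀ a, (1 - ε) * ‖a‖ ≤ ‖j a‖ := by
  classical
  have hsum : ∀ a : lp (fun _ : ℕ => ℝ) 1, Summable fun i => |a i| := by
    intro a
    have h := (lp.memℓp a).summable (by norm_num)
    simpa using h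
  have hnorm : ∀ a : lp (fun _ : ℕ => ℝ) 1, ‖a‖ = ∑' i, |a i| := by
    intro a
    rw [lp.norm_eq_tsum_rpow (by norm_num)]
    simp
  have hb : ∀ (a : lp (fun _ : ℕ => ℝ) 1) i, ‖a i • ψ i‖ ≤ |a i| := by
    intro a i
    rw [norm_smul]
    calc ‖a i‖ * ‖ψ i‖ ≤ ‖a i‖ * 1 := mul_le_mul_of_nonneg_left (hψ i) (norm_nonneg _)
      _ = |a i| := by rw [mul_one, Real.norm_eq_abs]
  have hs : ∀ a : lp (fun _ : ℕ => ℝ) 1, Summable fun i => a i • ψ i := fun a =>
    Summable.of_norm_bounded (hsum a) (hb a)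
  let j0 : lp (fun _ : ℕ => ℝ) 1 →ₗ[ℝ] StrongDual ℝ X :=
    { toFun := fun a => ∑' i, a i • ψ i
      map_add' := fun a b => by
        rw [← (hs a).tsum_add (hs b)]
        refine tsum_congr fun i => ?_
        rw [← add_smul]
        rfl
      map_smul' := fun c a => by
        rw [RingHom.id_apply, ← (hs a).tsum_const_smul c]
        refine tsum_congr fun i => ?_
        rw [smul_smul]
        rfl }
  have hj0 : ∀ a, ‖j0 a‖ ≤ 1 * ‖a‖ := by
    intro a
    rw [one_mul, hnorm]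
    exact tsum_of_norm_bounded (hsum a).hasSum (hb a)
  refine ⟨j0.mkContinuous 1 hj0, fun a => by
    rw [LinearMap.mkContinuous_apply]
    exact (hj0 a).trans_eq (one_mul _), fun a => ?_⟩
  rw [LinearMap.mkContinuous_apply]
  set B : ℝ := ∑' i, |a i| with hB
  have hle : ∀ N, ∑ i ∈ Finset.range N, |a i| ≤ B := fun N =>
    (hsum a).sum_le_tsum _ fun i _ => abs_nonneg _
  have hlow : ∀ N, (1 - ε) * (∑ i ∈ Finset.range (N + 1), |a i|) -
      (B - ∑ i ∈ Finset.range (N + 1), |a i|) ≤ ‖j0 a‖ := by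
    intro N
    obtain ⟨g, hg1, hg⟩ := hpat (fun i => decide (0 ≤ a i)) N
    have h0 : HasSum (fun i => a i * ψ i g) (j0 a g) := by
      have h1 := (hs a).hasSum.mapL (ContinuousLinearMap.apply ℝ ℝ g)
      exact h1
    have h1 : j0 a g ≤ ‖j0 a‖ := by
      calc j0 a g ≤ ‖j0 a g‖ := le_abs_self _
        _ ≤ ‖j0 a‖ * ‖g‖ := (j0 a).le_opNorm _
        _ ≤ ‖j0 a‖ * 1 := mul_le_mul_of_nonneg_left hg1 (norm_nonneg _)
        _ = ‖j0 a‖ := mul_one _
    refine le_trans ?_ h1
    refine ge_of_tendsto h0.tendsto_sum_nat ?_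
    filter_upwards [eventually_ge_atTop (N + 1)] with M hM
    have h2 : ∀ i ≤ N, (1 - ε) * |a i| ≤ a i * ψ i g := by
      intro i hi
      have h3 := (hg i hi).le
      by_cases h4 : 0 ≤ a i
      · simp only [h4, decide_true, if_true, one_mul] at h3
        rw [abs_of_nonneg h4]
        nlinarith
      · simp only [h4, decide_false, if_false, Bool.false_eq_true] at h3
        rw [not_le] at h4
        rw [abs_of_neg h4]
        nlinarith
    have h3 : ∀ i, -|a i| ≤ a i * ψ i g := by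
      intro i
      have h4 : |a i * ψ i g| ≤ |a i| := by
        rw [abs_mul]
        have h5 : |ψ i g| ≤ 1 := by
          calc |ψ i g| = ‖ψ i g‖ := rfl
            _ ≤ ‖ψ i‖ * ‖g‖ := (ψ i).le_opNorm _
            _ ≤ 1 * 1 := mul_le_mul (hψ i) hg1 (norm_nonneg _) zero_le_one
            _ = 1 := one_mul _
        calc |a i| * |ψ i g| ≤ |a i| * 1 := mul_le_mul_of_nonneg_left h5 (abs_nonneg _)
          _ = |a i| := mul_one _
      exact (abs_le.1 h4).1
    have h5 : (1 - ε) * (∑ i ∈ Finset.range (N + 1), |a i|) ≤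
        ∑ i ∈ Finset.range (N + 1), a i * ψ i g := by
      rw [Finset.mul_sum]
      exact Finset.sum_le_sum fun i hi => h2 i (by have := Finset.mem_range.1 hi; omega)
    have h6 : -(∑ i ∈ Finset.Ico (N + 1) M, |a i|) ≤ ∑ i ∈ Finset.Ico (N + 1) M, a i * ψ i g := by
      rw [← Finset.sum_neg_distrib]
      exact Finset.sum_le_sum fun i _ => h3 i
    have h7 : ∑ i ∈ Finset.range (N + 1), |a i| + ∑ i ∈ Finset.Ico (N + 1) M, |a i| ≤ B := by
      rw [Finset.sum_range_add_sum_Ico _ hM]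
      exact hle M
    rw [← Finset.sum_range_add_sum_Ico _ hM]
    linarith
  have hlim : Tendsto (fun N => (1 - ε) * (∑ i ∈ Finset.range (N + 1), |a i|) -
      (B - ∑ i ∈ Finset.range (N + 1), |a i|)) atTop (𝓝 ((1 - ε) * B - (B - B))) := by
    have h1 : Tendsto (fun N => ∑ i ∈ Finset.range (N + 1), |a i|) atTop (𝓝 B) :=
      (hsum a).hasSum.tendsto_sum_nat.comp (tendsto_add_atTop_nat 1)
    exact (h1.const_mul _).sub (h1.const_sub _)
  have h2 := le_of_tendsto hlim (Eventually.of_forall hlow)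
  rw [hnorm]
  linarith

/-- Weak fixed point property of spaces whose dual contains no copy of `l_1`. -/
theorem fixed_of_no_l1 [CompleteSpace X]
    (hX : ¬ ∃ j : lp (fun _ : ℕ => ℝ) 1 →L[ℝ] StrongDual ℝ X, ∃ c > 0, ∀ a, c * ‖a‖ ≤ ‖j a‖)
    {C : Set X} (hC : IsCompact (toWeakSpace ℝ X '' C))
    (hne : C.Nonempty) (hco : Convex ℝ C) {T : X → X} (hTm : MapsTo T C C)
    (hT : ∀ x ∈ C, ∀ y ∈ C, ‖T x - T y‖ ≤ ‖x - y‖) : ∃ x ∈ C, T x = x := by
  by_contra hcon
  push Not at hcon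
  obtain ⟨K, hKC, hKne, hKsep, ψ, hψ, hnull, hpat⟩ := dichotomy hC hne hco hTm hT hcon
    (show (0 : ℝ) < 1 / 2 by norm_num)
  obtain ⟨j, -, hj⟩ := l1_embedding ψ hψ (show (1 / 2 : ℝ) < 1 by norm_num) (fun θ N => by
    obtain ⟨g, hg1, -, hg3⟩ := hpat θ N
    exact ⟨g, hg1, hg3⟩)
  exact hX ⟨j, 1 - 1 / 2, by norm_num, hj⟩

end L1

section Bidual

/-- Limits in the bidual along ultrafilters. -/
theorem exists_bidual_limit {ι : Type*} (U : Ultrafilter ι) (x : ι → X) (M : ℝ)
    (hM : ∀ i, ‖x i‖ ≤ M) :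
    ∃ G : StrongDual ℝ (StrongDual ℝ X), ∀ f : StrongDual ℝ X,
      Tendsto (fun i => f (x i)) U (𝓝 (G f)) := by
  have hlim : ∀ f : StrongDual ℝ X, ∃ a : ℝ, Tendsto (fun i => f (x i)) U (𝓝 a) := by
    intro f
    have hcomp : IsCompact (Metric.closedBall (0 : ℝ) (‖f‖ * M)) := isCompact_closedBall _ _
    have hmem : ∀ i, f (x i) ∈ Metric.closedBall (0 : ℝ) (‖f‖ * M) := by
      intro i
      rw [mem_closedBall_zero_iff]
      exact (f.le_opNorm _).trans (mul_le_mul_of_nonneg_left (hM i) (norm_nonneg _))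
    obtain ⟨a, _, ha⟩ := hcomp.ultrafilter_le_nhds (U.map (fun i => f (x i))) (by
      rw [le_principal_iff, Ultrafilter.coe_map, Filter.mem_map]
      exact Filter.Eventually.of_forall hmem)
    exact ⟨a, ha⟩
  choose Λ hΛ using hlim
  have hadd : ∀ f f' : StrongDual ℝ X, Λ (f + f') = Λ f + Λ f' := by
    intro f f'
    refine tendsto_nhds_unique (hΛ (f + f')) ?_
    simpa only [add_apply] using (hΛ f).add (hΛ f')
  have hsmul : ∀ (c : ℝ) (f : StrongDual ℝ X), Λ (c • f) = c * Λ f := by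
    intro c f
    refine tendsto_nhds_unique (hΛ (c • f)) ?_
    simpa only [smul_apply, smul_eq_mul] using (hΛ f).const_mul c
  have hbd : ∀ f : StrongDual ℝ X, ‖Λ f‖ ≤ M * ‖f‖ := by
    intro f
    refine le_of_tendsto (hΛ f).norm (Filter.Eventually.of_forall fun i => ?_)
    calc ‖f (x i)‖ ≤ ‖f‖ * ‖x i‖ := f.le_opNorm _
      _ ≤ ‖f‖ * M := mul_le_mul_of_nonneg_left (hM i) (norm_nonneg _)
      _ = M * ‖f‖ := mul_comm _ _
  let L : StrongDual ℝ X →ₗ[ℝ] ℝ :=
    { toFun := Λ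
      map_add' := hadd
      map_smul' := fun c f => by rw [hsmul, RingHom.id_apply, smul_eq_mul] }
  exact ⟨L.mkContinuous M hbd, hΛ⟩

/-- Elements of the bidual near `X` that annihilate `Y^⊥` are near `Y`. -/
theorem near_subspace (Y : Submodule ℝ X) (x : X) {r : ℝ} (hr : 0 < r)
    (h : ∀ f : StrongDual ℝ X, (∀ y ∈ Y, f y = 0) → |f x| < r * ‖f‖ ∨ f = 0) :
    ∃ y ∈ Y, ‖x - y‖ < r := by
  by_contra hcon
  push Not at hcon
  have hdisj : Disjoint (Metric.ball x r) (Y : Set X) := by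
    rw [Set.disjoint_left]
    intro y hy hyY
    have h1 := hcon y hyY
    rw [mem_ball_iff_norm, norm_sub_rev] at hy
    linarith
  obtain ⟨f, u, hf1, hf2⟩ := geometric_hahn_banach_open (convex_ball x r) Metric.isOpen_ball
    Y.convex hdisj
  have hu0 : u ≤ 0 := by
    have := hf2 0 Y.zero_mem
    rwa [map_zero] at this
  have hY0 : ∀ y ∈ Y, f y = 0 := by
    intro y hy
    by_contra hne
    have h1 := hf2 (((u - 1) / f y) • y) (Y.smul_mem _ hy)
    rw [map_smul, smul_eq_mul, div_mul_cancel₀ _ hne] at h1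
    linarith
  have hx : f x < 0 := lt_of_lt_of_le (hf1 x (Metric.mem_ball_self hr)) hu0
  rcases h f hY0 with h1 | h1
  · have hfn : 0 < ‖f‖ := by
      rw [norm_pos_iff]
      rintro rfl
      simp at hx
    rw [abs_of_neg hx] at h1
    -- the ball condition gives `f x + r * ‖f‖ ≤ 0`
    have h2 : ‖f‖ ≤ (- f x) / r := by
      refine ContinuousLinearMap.opNorm_le_bound _ (div_nonneg (by linarith) hr.le) fun z => ?_
      rcases eq_or_ne z 0 with rfl | hz
      · simp
      have hzn : 0 < ‖z‖ := norm_pos_iff.2 hz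
      have key : ∀ w : X, ‖w‖ = ‖z‖ → f w ≤ (- f x) / r * ‖z‖ := by
        intro w hw
        refine le_of_forall_lt fun c hc => ?_
        by_contra hlt
        rw [not_lt] at hlt
        -- choose t < r / ‖z‖ close
        have h3 : (- f x) / r * ‖z‖ < f w := lt_of_le_of_lt hlt hc
        have h4 : - f x < f w * (r / ‖z‖) := by
          have h5 : (- f x) / r * ‖z‖ * (r / ‖z‖) = - f x := by field_simp
          rw [← h5]
          exact mul_lt_mul_of_pos_right h3 (div_pos hr hzn)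
        have hfw : 0 < f w := lt_of_le_of_lt (by have := div_nonneg (by linarith : 0 ≤ - f x) hr.le; positivity) h3
        -- pick t with t < r/‖z‖ and - f x < f w * t
        obtain ⟨t, ht1, ht2⟩ := exists_between (show (- f x) / f w < r / ‖z‖ by
          rw [div_lt_iff₀ hfw, mul_comm]
          exact h4)
        have ht0 : 0 ≤ t := le_trans (div_nonneg (by linarith) hfw.le) ht1.le
        have h6 : x + t • w ∈ Metric.ball x r := by
          rw [mem_ball_iff_norm, add_sub_cancel_left, norm_smul, Real.norm_of_nonneg ht0, hw]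
          rwa [lt_div_iff₀ hzn] at ht2
        have h7 := hf1 _ h6
        rw [map_add, map_smul, smul_eq_mul] at h7
        rw [div_lt_iff₀ hfw] at ht1
        linarith
      rw [Real.norm_eq_abs, abs_le]
      constructor
      · have := key (-z) (norm_neg z)
        rw [map_neg] at this
        linarith
      · exact key z rfl
    rw [le_div_iff₀ hr] at h2
    linarith
  · rw [h1] at hx
    simp at hx

/-- Weak fixed point property when `X** / X` is separable. -/
theorem fixed_of_separable_quotient [CompleteSpace X]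
    (hX : ∃ D : Set (StrongDual ℝ (StrongDual ℝ X)), D.Countable ∧
      ∀ (G : StrongDual ℝ (StrongDual ℝ X)) (δ : ℝ), 0 < δ →
        ∃ d ∈ D, ∃ x : X, ‖G - d - NormedSpace.inclusionInDoubleDual ℝ X x‖ < δ)
    {C : Set X} (hC : IsCompact (toWeakSpace ℝ X '' C))
    (hne : C.Nonempty) (hco : Convex ℝ C) {T : X → X} (hTm : MapsTo T C C)
    (hT : ∀ x ∈ C, ∀ y ∈ C, ‖T x - T y‖ ≤ ‖x - y‖) : ∃ x ∈ C, T x = x := by
  by_contra hcon
  push Not at hcon
  obtain ⟨K, hKC, hKne, hKsep, ψ, hψ, hnull, hpat⟩ := dichotomy hC hne hco hTm hT hcon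
    (show (0 : ℝ) < 1 / 2 by norm_num)
  choose g hg1 hg2 hg3 using hpat
  have hG : ∀ θ : ℕ → Bool, ∃ G : StrongDual ℝ (StrongDual ℝ X), ∀ f : StrongDual ℝ X,
      Tendsto (fun N => f (g θ N)) (hyperfilter ℕ) (𝓝 (G f)) := fun θ =>
    exists_bidual_limit _ _ 1 (hg1 θ)
  choose G hG using hG
  have hGψ : ∀ θ i, 1 / 2 ≤ (if θ i = true then (1 : ℝ) else -1) * G θ (ψ i) := by
    intro θ i
    refine ge_of_tendsto ((hG θ (ψ i)).const_mul _) ?_
    have h2 : ∀ᶠ N in (hyperfilter ℕ : Filter ℕ), i ≤ N :=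
      (eventually_ge_atTop i).filter_mono Nat.hyperfilter_le_atTop
    filter_upwards [h2] with N hN
    have := hg3 θ N i hN
    norm_num at this ⊢
    exact this.le
  set Y : Submodule ℝ X := Submodule.span ℝ (K - K) with hY
  have hG0 : ∀ θ (f : StrongDual ℝ X), (∀ y ∈ Y, f y = 0) → G θ f = 0 := by
    intro θ f hf
    refine tendsto_nhds_unique (hG θ f) ?_
    have : (fun N => f (g θ N)) = fun _ => 0 := by
      funext N
      exact hf _ (hg2 θ N)
    rw [this]
    exact tendsto_const_nhds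
  obtain ⟨D, hDc, hD⟩ := hX
  let rep : (ℕ → Bool) → (ℕ → Bool) := fun θ i => θ (Nat.unpair i).1
  have hch : ∀ θ : ℕ → Bool, ∃ d ∈ D, ∃ x : X,
      ‖G (rep θ) - d - NormedSpace.inclusionInDoubleDual ℝ X x‖ < 1 / 16 := fun θ =>
    hD _ _ (by norm_num)
  choose d hdD x hdx using hch
  -- two different sequences with the same `d`
  obtain ⟨θ, θ', hne', hdd⟩ : ∃ θ θ' : ℕ → Bool, θ ≠ θ' ∧ d θ = d θ' := by
    by_contra hinj
    push Not at hinj
    have h1 : Function.Injective (fun θ : ℕ → Bool => (⟨d θ, hdD θ⟩ : D)) := by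
      intro θ θ' h
      by_contra hne
      exact hinj θ θ' hne (congrArg Subtype.val h)
    haveI := hDc.to_subtype
    have h2 : Countable (ℕ → Bool) := h1.countable
    obtain ⟨e, he⟩ := h2.exists_injective_nat
    classical
    refine Function.cantor_injective (fun s : Set ℕ => e (fun n => decide (n ∈ s))) ?_
    intro s s' hss
    have h3 := he hss
    ext n
    have h4 := congrFun h3 n
    simpa [decide_eq_decide] using h4
  obtain ⟨k, hk⟩ := Function.ne_iff.1 hne'
  have hdiff : ‖G (rep θ) - G (rep θ') - NormedSpace.inclusionInDoubleDual ℝ X (x θ - x θ')‖ <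
      1 / 8 := by
    have h1 := hdx θ
    have h2 := hdx θ'
    rw [hdd] at h1
    have h3 : G (rep θ) - G (rep θ') - NormedSpace.inclusionInDoubleDual ℝ X (x θ - x θ') =
        (G (rep θ) - d θ' - NormedSpace.inclusionInDoubleDual ℝ X (x θ)) -
        (G (rep θ') - d θ' - NormedSpace.inclusionInDoubleDual ℝ X (x θ')) := by
      rw [map_sub]
      abel
    have h4 := norm_sub_le (E := StrongDual ℝ (StrongDual ℝ X))
      (G (rep θ) - d θ' - NormedSpace.inclusionInDoubleDual ℝ X (x θ))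
      (G (rep θ') - d θ' - NormedSpace.inclusionInDoubleDual ℝ X (x θ'))
    rw [h3]
    refine lt_of_le_of_lt h4 ?_
    linarith
  obtain ⟨y, hyY, hy⟩ := near_subspace Y (x θ - x θ') (show (0 : ℝ) < 1 / 8 by norm_num) (by
    intro f hf
    rcases eq_or_ne f 0 with h0 | h0
    · exact Or.inr h0
    refine Or.inl ?_
    have hfn : 0 < ‖f‖ := norm_pos_iff.2 h0
    have h1 : (G (rep θ) - G (rep θ') -
        NormedSpace.inclusionInDoubleDual ℝ X (x θ - x θ')) f = - f (x θ - x θ') := by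
      rw [sub_apply, sub_apply, hG0 _ f hf, hG0 _ f hf, NormedSpace.dual_def]
      ring
    have h2 := (G (rep θ) - G (rep θ') -
        NormedSpace.inclusionInDoubleDual ℝ X (x θ - x θ')).le_opNorm f
    rw [h1, norm_neg, Real.norm_eq_abs] at h2
    exact lt_of_le_of_lt h2 (mul_lt_mul_of_pos_right hdiff hfn))
  have hdy : ‖G (rep θ) - G (rep θ') - NormedSpace.inclusionInDoubleDual ℝ X y‖ < 1 / 4 := by
    have h3 : G (rep θ) - G (rep θ') - NormedSpace.inclusionInDoubleDual ℝ X y =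
        (G (rep θ) - G (rep θ') - NormedSpace.inclusionInDoubleDual ℝ X (x θ - x θ')) +
        NormedSpace.inclusionInDoubleDual ℝ X ((x θ - x θ') - y) := by
      rw [map_sub _ (x θ - x θ') y]
      abel
    rw [h3]
    have h4 : ‖NormedSpace.inclusionInDoubleDual ℝ X ((x θ - x θ') - y)‖ = ‖(x θ - x θ') - y‖ :=
      (NormedSpace.inclusionInDoubleDualLi ℝ (E := X)).norm_map _
    have h5 := norm_add_le (E := StrongDual ℝ (StrongDual ℝ X))
      (G (rep θ) - G (rep θ') - NormedSpace.inclusionInDoubleDual ℝ X (x θ - x θ'))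
      (NormedSpace.inclusionInDoubleDual ℝ X ((x θ - x θ') - y))
    refine lt_of_le_of_lt h5 ?_
    rw [h4]
    linarith
  -- evaluate at `ψ (pair k m)`
  have hnull' : Tendsto (fun m => ψ (Nat.pair k m) y) atTop (𝓝 0) := by
    have h1 := tendsto_span ψ hψ hnull y (Submodule.le_topologicalClosure _ hyY)
    refine h1.comp ?_
    refine tendsto_atTop_mono (fun m => Nat.right_le_pair k m) tendsto_id
  obtain ⟨m, hm⟩ := (hnull'.eventually (Metric.ball_mem_nhds (0 : ℝ)
    (show (0 : ℝ) < 1 / 4 by norm_num))).exists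
  rw [dist_zero_right, Real.norm_eq_abs] at hm
  have hi1 := hGψ (rep θ) (Nat.pair k m)
  have hi2 := hGψ (rep θ') (Nat.pair k m)
  have hr1 : rep θ (Nat.pair k m) = θ k := by simp [rep]
  have hr2 : rep θ' (Nat.pair k m) = θ' k := by simp [rep]
  rw [hr1] at hi1
  rw [hr2] at hi2
  have h5 := (G (rep θ) - G (rep θ') -
    NormedSpace.inclusionInDoubleDual ℝ X y).le_opNorm (ψ (Nat.pair k m))
  rw [sub_apply, sub_apply, NormedSpace.dual_def, Real.norm_eq_abs] at h5
  have h6 : ‖G (rep θ) - G (rep θ') - NormedSpace.inclusionInDoubleDual ℝ X y‖ *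
      ‖ψ (Nat.pair k m)‖ ≤ 1 / 4 * 1 :=
    mul_le_mul hdy.le (hψ _) (norm_nonneg _) (by norm_num)
  have h7 := h5.trans h6
  rw [abs_le] at h7
  rw [abs_lt] at hm
  cases hθ : θ k with
  | true =>
    have hθ' : θ' k = false := by
      cases h : θ' k with
      | true => exact absurd (hθ.trans h.symm) hk
      | false => rfl
    rw [hθ] at hi1
    rw [hθ'] at hi2
    norm_num at hi1 hi2
    linarith [h7.1, h7.2, hm.1, hm.2]
  | false =>
    have hθ' : θ' k = true := by
      cases h : θ' k with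
      | true => rfl
      | false => exact absurd (hθ.trans h.symm) hk
    rw [hθ] at hi1
    rw [hθ'] at hi2
    norm_num at hi1 hi2
    linarith [h7.1, h7.2, hm.1, hm.2]

end Bidual

end Vale.Agent.P079.H709
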