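import Vale.Agent.P079.H709.Tree

set_option linter.all false

open Filter Topology Set

namespace Vale.Agent.P079.H709

variable {X : Type*} [NormedAddCommGroup X] [NormedSpace ℝ X]

/-- The allowed deficit of a list of length `j`. -/
noncomputable def dfc (ε : ℝ) (j : ℕ) : ℝ := ε * (1 - (1 / 2) ^ j)

theorem dfc_succ (ε : ℝ) (j : ℕ) : dfc ε (j + 1) = dfc ε j + ε * (1 / 2) ^ (j + 1) := by
  rw [dfc, dfc]
  ring

theorem dfc_le {ε : ℝ} (hε : 0 < ε) (j : ℕ) : dfc ε j ≤ ε := by
  have : (0 : ℝ) ≤ (1 / 2) ^ j := by positivity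
  rw [dfc]
  nlinarith

/-- Valid lists of indices. -/
def Vld (C : Set X) (u : ℕ → X) (R : ℕ → X → X) (φ : ℕ → StrongDual ℝ X) (ε : ℝ) :
    List ℕ → Prop
  | [] => True
  | [k] => 1 - ε / 16 < φ k (u k)
  | n :: k :: l =>
      (((n :: k :: l).length : ℕ) : ℝ) * ‖R k (u n) - u n‖ ≤
        ε * (1 / 2) ^ ((n :: k :: l).length + 1) ∧
      ∃ (W : ℝ) (Ψ : X → X), Ctx C u W Ψ ∧
        (((n :: k :: l).length : ℕ) - dfc ε (n :: k :: l).length) * W <
          alt φ (n :: k :: l) (Ψ (u n)) - alt φ (n :: k :: l) (Ψ (u k))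

/-- Main combinatorial theorem: after passing to a subsequence the functionals realize all sign
patterns on the unit ball, almost isometrically. -/
theorem core_signs (C : Set X) (hconv : Convex ℝ C) (h0 : (0 : X) ∈ C)
    (hdiam : ∀ x ∈ C, ∀ y ∈ C, ‖x - y‖ ≤ 1)
    (R : ℕ → X → X) (hRmaps : ∀ n, MapsTo (R n) C C)
    (hRne : ∀ n, ∀ x ∈ C, ∀ y ∈ C, ‖R n x - R n y‖ ≤ ‖x - y‖)
    (hfix : ∀ k, Tendsto (fun n => ‖R k (R n 0) - R n 0‖) atTop (𝓝 0))
    (φ : ℕ → StrongDual ℝ X) (hφ1 : ∀ n, ‖φ n‖ ≤ 1)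
    (hφu : Tendsto (fun n => φ n (R n 0)) atTop (𝓝 1))
    (hφC : ∀ v ∈ C, Tendsto (fun n => φ n v) atTop (𝓝 0))
    (hweak : ∀ f : StrongDual ℝ X, Tendsto (fun n => f (R n 0)) atTop (𝓝 0))
    {ε : ℝ} (hε : 0 < ε) :
    ∃ a : ℕ → ℕ, StrictMono a ∧ ∀ (θ : ℕ → Bool) (N : ℕ), ∃ g : X, ‖g‖ ≤ 1 ∧
      g ∈ Submodule.span ℝ C ∧
      ∀ i ≤ N, 1 - ε < (if θ i = true then (1 : ℝ) else -1) * φ (a i) g := by
  classical
  set u : ℕ → X := fun n => R n 0 with hu_def
  have hu : ∀ n, u n ∈ C := fun n => hRmaps n h0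
  have hext : ∀ l, Vld C u R φ ε l → ∀ᶠ n in atTop, Vld C u R φ ε (n :: l) := by
    intro l hl
    match l, hl with
    | [], _ =>
      have h1 : ∀ᶠ k in atTop, 1 - ε / 16 < φ k (u k) :=
        hφu.eventually (lt_mem_nhds (by linarith))
      exact h1
    | [k], hl =>
      have hk : 1 - ε / 16 < φ k (u k) := hl
      have e1 : ∀ᶠ n in atTop, 1 - ε / 16 < φ n (u n) :=
        hφu.eventually (lt_mem_nhds (by linarith))
      have e2 : ∀ᶠ n in atTop, φ k (u n) < ε / 16 :=
        (hweak (φ k)).eventually (gt_mem_nhds (by linarith))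
      have e3 : ∀ᶠ n in atTop, φ n (u k) < ε / 16 :=
        (hφC _ (hu k)).eventually (gt_mem_nhds (by linarith))
      have e4 : ∀ᶠ n in atTop, ‖R k (u n) - u n‖ < ε / 16 :=
        (hfix k).eventually (gt_mem_nhds (by linarith))
      filter_upwards [e1, e2, e3, e4] with n h1 h2 h3 h4
      refine ⟨?_, 1, fun x => x, Ctx.one C u, ?_⟩
      · have h5 : (([n, k].length : ℕ) : ℝ) = 2 := by norm_num
        have h6 : [n, k].length + 1 = 3 := rfl
        rw [h5, h6]
        norm_num
        linarith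
      · have h5 : (([n, k].length : ℕ) : ℝ) = 2 := by norm_num
        have h6 : [n, k].length = 2 := rfl
        have h7 : alt φ [n, k] = φ n - φ k := by simp [alt]
        rw [h7, h5, h6, dfc]
        simp only [sub_apply]
        norm_num
        linarith
    | n :: k :: l', hl =>
      obtain ⟨hpair, W, Ψ, hΨ, hbad⟩ := hl
      set j : ℕ := (n :: k :: l').length with hj
      set F : StrongDual ℝ X := alt φ (n :: k :: l') with hF
      have hj0 : (0 : ℝ) < j + 1 := by positivity
      have e4 : ∀ᶠ n' in atTop, ‖R n (u n') - u n'‖ < ε * (1 / 2) ^ (j + 1 + 1) / ((j : ℝ) + 1) :=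
        (hfix n).eventually (gt_mem_nhds (by positivity))
      by_contra hcon
      rw [Filter.not_eventually] at hcon
      have hA : ∃ᶠ n' in atTop, ∀ W Ψ, Ctx C u W Ψ →
          (φ n' - F) (Ψ (u n')) - (φ n' - F) (Ψ (u n)) ≤ ((j : ℝ) + 1 - dfc ε (j + 1)) * W := by
        refine (hcon.and_eventually e4).mono ?_
        rintro n' ⟨hn1, hn2⟩ W' Ψ' hΨ'
        by_contra hlt
        rw [not_le] at hlt
        refine hn1 ⟨?_, W', Ψ', hΨ', ?_⟩
        · have h1 := hn2.le
          rw [le_div_iff₀ hj0] at h1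
          have h2 : (((n' :: n :: k :: l').length : ℕ) : ℝ) = (j : ℝ) + 1 := by
            rw [hj]; push_cast [List.length_cons]; ring
          have h3 : (n' :: n :: k :: l').length + 1 = j + 1 + 1 := by
            rw [hj]; simp [List.length_cons]
          rw [h2, h3]
          linarith
        · have h2 : (((n' :: n :: k :: l').length : ℕ) : ℝ) = (j : ℝ) + 1 := by
            rw [hj]; push_cast [List.length_cons]; ring
          have h3 : (n' :: n :: k :: l').length = j + 1 := by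
            rw [hj]; simp [List.length_cons]
          have h4 : alt φ (n' :: n :: k :: l') = φ n' - F := rfl
          rw [h2, h3, h4]
          exact hlt
      have hcc : dfc ε j + (j : ℝ) * ‖R k (u n) - u n‖ ≤ dfc ε (j + 1) := by
        rw [dfc_succ]
        linarith
      have := step_freq hconv hdiam u hu (hRmaps k) (hRne k) (hfix k) φ hφ1 hφu hφC h0 hweak F
        (j : ℝ) (by positivity) (alt_norm φ hφ1 _) n (dfc ε j) (dfc ε (j + 1)) hcc hA hΨ
      exact absurd this (not_le.2 hbad)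
  obtain ⟨m, hm, hmV⟩ := exists_thin (Vld C u R φ ε) trivial hext
  refine ⟨fun i => m (2 * i + 1), fun i i' h => hm (by omega), ?_⟩
  intro θ N
  -- the vector for the pattern
  have hvec : ∀ N, ∃ g : X, ‖g‖ ≤ 1 ∧ g ∈ Submodule.span ℝ C ∧
      (((pat θ N).map m).length : ℝ) - ε < alt φ ((pat θ N).map m) g := by
    intro N
    have hV := hmV _ (pat_pairwise θ N)
    obtain ⟨n, k, l, hl⟩ : ∃ n k l, (pat θ N).map m = n :: k :: l := by
      cases N with
      | zero => exact ⟨m 1, m 0, [], rfl⟩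
      | succ N =>
        obtain ⟨t, ht⟩ := pat_head θ N
        rw [pat]
        split_ifs
        · exact ⟨_, _, _, rfl⟩
        · rw [ht]
          exact ⟨_, _, _, rfl⟩
    rw [hl] at hV ⊢
    obtain ⟨_, W, Ψ, hΨ, hbad⟩ := hV
    set j : ℕ := (n :: k :: l).length with hj
    have hxy : ‖Ψ (u n) - Ψ (u k)‖ ≤ W := by
      have h1 := hΨ.lip _ (hu n) _ (hu k)
      have h2 := hdiam _ (hu n) _ (hu k)
      have h3 := hΨ.W0
      nlinarith only [h1, h2, h3]
    have hWpos : 0 < W := by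
      rcases eq_or_lt_of_le hΨ.W0 with h | h
      · exfalso
        rw [← h] at hxy hbad
        have h1 : Ψ (u n) - Ψ (u k) = 0 := norm_le_zero_iff.1 hxy
        rw [← map_sub, h1, map_zero, mul_zero] at hbad
        exact lt_irrefl _ hbad
      · exact h
    refine ⟨W⁻¹ • (Ψ (u n) - Ψ (u k)), ?_, ?_, ?_⟩
    · rw [norm_smul, norm_inv, Real.norm_of_nonneg hWpos.le, inv_mul_le_iff₀ hWpos, mul_one]
      exact hxy
    · exact Submodule.smul_mem _ _ (Submodule.sub_mem _
        (Submodule.subset_span (hΨ.maps (hu _))) (Submodule.subset_span (hΨ.maps (hu _))))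
    · rw [map_smul, smul_eq_mul, map_sub]
      rw [← mul_lt_mul_iff_of_pos_left hWpos, mul_inv_cancel_left₀ hWpos.ne']
      refine lt_of_le_of_lt ?_ hbad
      have h1 := dfc_le hε j
      nlinarith only [hWpos, h1]
  obtain ⟨g, hg1, hg2, hg3⟩ := hvec N
  have hpat := alt_pat φ hφ1 m θ N g hg1 hg3
  by_cases hN : θ N = true
  · refine ⟨g, hg1, hg2, fun i hi => ?_⟩
    have := hpat i hi
    rw [hN] at this
    exact this
  · refine ⟨-g, by rwa [norm_neg], Submodule.neg_mem _ hg2, fun i hi => ?_⟩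
    have := hpat i hi
    rw [map_neg]
    have hN' : θ N = false := by simpa using hN
    rw [hN'] at this
    cases hi' : θ i with
    | true =>
      rw [hi'] at this
      simp at this ⊢
      linarith
    | false =>
      rw [hi'] at this
      simp at this ⊢
      linarith

end Vale.Agent.P079.H709
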