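import Mathlib.Analysis.Normed.Module.DoubleDual
import Mathlib.Analysis.LocallyConvex.WeakSpace
import Mathlib.Analysis.Normed.Lp.lpSpace
import Mathlib.Topology.ContinuousMap.ZeroAtInfty

open ZeroAtInfty

namespace Vale.Agent.P079.H709

universe u v

/-- Nonexpansive selfmaps of a subset `C` of a normed space, in the given norm. -/
def Nonexpansive {X : Type u} [NormedAddCommGroup X] {C : Set X} (T : C → C) : Prop :=
  ∀ a b : C, ‖(T a : X) - (T b : X)‖ ≤ ‖(a : X) - (b : X)‖

/-- Every reflexive Banach space has the fixed point property: the question as posed. -/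
def ReflexiveFixedPoints : Prop :=
  ∀ (X : Type u) [NormedAddCommGroup X] [NormedSpace ℝ X] [CompleteSpace X],
    Function.Surjective (NormedSpace.inclusionInDoubleDual ℝ X) →
    ∀ C : Set X, C.Nonempty → IsClosed C → Bornology.IsBounded C → Convex ℝ C →
      ∀ T : C → C, Nonexpansive T → ∃ a : C, T a = a

/-- Nonempty weakly compact convex subsets. -/
def WeaklyCompactConvex {X : Type u} [NormedAddCommGroup X] [NormedSpace ℝ X] (C : Set X) : Prop :=
  C.Nonempty ∧ Convex ℝ C ∧ IsCompact (toWeakSpace ℝ X '' C)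

/-- Commuting families `T i`, `i : I`, of nonexpansive selfmaps of `C` have a common fixed point,
and their set of common fixed points is a nonexpansive retract of `C`. -/
def CommonFixedPoints {X : Type u} [NormedAddCommGroup X] (C : Set X) : Prop :=
  ∀ (I : Type v) (T : I → C → C), (∀ i : I, Nonexpansive (T i)) →
    (∀ (i j : I) (a : C), T i (T j a) = T j (T i a)) →
    (∃ a : C, ∀ i : I, T i a = a) ∧
    ∃ r : C → C, Nonexpansive r ∧ (∀ (a : C) (i : I), T i (r a) = r a) ∧
      ∀ a : C, (∀ i : I, T i a = a) → r a = a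

/-- The weak fixed point property for commuting families: every nonempty weakly compact convex
subset `C` of `X` satisfies `CommonFixedPoints C`. -/
def WeakFixedPoints (X : Type u) [NormedAddCommGroup X] [NormedSpace ℝ X] : Prop :=
  ∀ C : Set X, WeaklyCompactConvex C → CommonFixedPoints.{u, v} C

/-- For every `η > 0`, `c_0` is a `(1 + η)`-isometric quotient of a closed separable subspace of
the closed linear span of `C`. -/
def HasC0Quotients {X : Type u} [NormedAddCommGroup X] [NormedSpace ℝ X] (C : Set X) : Prop :=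
  ∀ η : ℝ, 0 < η →
    ∃ Y : Submodule ℝ X, IsClosed (Y : Set X) ∧ TopologicalSpace.IsSeparable (Y : Set X) ∧
      Y ≤ (Submodule.span ℝ C).topologicalClosure ∧
      ∃ S : Y →L[ℝ] C₀(ℕ, ℝ), ‖S‖ ≤ 1 ∧
        ∀ a : C₀(ℕ, ℝ), ∃ y : Y, S y = a ∧ ‖y‖ ≤ (1 + η) * ‖a‖

/-- `X` has a bounded linear operator onto `c_0`. -/
def MapsOntoC0 (X : Type u) [NormedAddCommGroup X] [NormedSpace ℝ X] : Prop :=
  ∃ S : X →L[ℝ] C₀(ℕ, ℝ), Function.Surjective S

/-- Some closed separable subspace of the closed linear span of `C` maps onto `c_0`. -/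
def SpanMapsOntoC0 {X : Type u} [NormedAddCommGroup X] [NormedSpace ℝ X] (C : Set X) : Prop :=
  ∃ Y : Submodule ℝ X, IsClosed (Y : Set X) ∧ TopologicalSpace.IsSeparable (Y : Set X) ∧
    Y ≤ (Submodule.span ℝ C).topologicalClosure ∧ MapsOntoC0 Y

/-- `X` contains an isomorphic copy of `l_1`. -/
def ContainsL1 (X : Type u) [NormedAddCommGroup X] [NormedSpace ℝ X] : Prop :=
  ∃ j : lp (fun _ : ℕ => ℝ) 1 →L[ℝ] X, ∃ c > 0, ∀ a, c * ‖a‖ ≤ ‖j a‖

/-- `X**/X` is separable: the sets `d + X`, `d ∈ D`, are dense in `X**` for a countable `D`. -/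
def SeparableBidualQuotient (X : Type u) [NormedAddCommGroup X] [NormedSpace ℝ X] : Prop :=
  ∃ D : Set (StrongDual ℝ (StrongDual ℝ X)), D.Countable ∧
    ∀ (G : StrongDual ℝ (StrongDual ℝ X)) (δ : ℝ), 0 < δ →
      ∃ d ∈ D, ∃ x : X, ‖G - d - NormedSpace.inclusionInDoubleDual ℝ X x‖ < δ

end Vale.Agent.P079.H709
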