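import Vale.Agent.P079.H709.Weak

set_option linter.all false

open Filter Topology Set Pointwise

namespace Vale.Agent.P079.H709

variable {X : Type*} [NormedAddCommGroup X] [NormedSpace ℝ X]

/-- The main dichotomy: a nonexpansive map without fixed points on a weakly compact convex set
produces functionals, null on the differences of a separable invariant set, which realize all sign
patterns almost isometrically. -/
theorem dichotomy [CompleteSpace X] {C : Set X} (hC : IsCompact (toWeakSpace ℝ X '' C))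
    (hne : C.Nonempty) (hco : Convex ℝ C) {T : X → X} (hTm : MapsTo T C C)
    (hT : ∀ x ∈ C, ∀ y ∈ C, ‖T x - T y‖ ≤ ‖x - y‖) (hcon : ∀ x ∈ C, T x ≠ x)
    {ε : ℝ} (hε : 0 < ε) :
    ∃ K ⊆ C, K.Nonempty ∧ TopologicalSpace.IsSeparable K ∧
      ∃ ψ : ℕ → StrongDual ℝ X, (∀ i, ‖ψ i‖ ≤ 1) ∧
        (∀ x ∈ K, ∀ y ∈ K, Tendsto (fun i => ψ i (x - y)) atTop (𝓝 0)) ∧
        ∀ (θ : ℕ → Bool) (N : ℕ), ∃ g : X, ‖g‖ ≤ 1 ∧ g ∈ Submodule.span ℝ (K - K) ∧
          ∀ i ≤ N, 1 - ε < (if θ i = true then (1 : ℝ) else -1) * ψ i g := by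
  -- separable minimal invariant set
  have hcl := wcpt_closed hC
  obtain ⟨C', hC'C, hC'ne, hC'cl, hC'co, hC'T, hC'sep⟩ :=
    exists_separable_invariant hcl hco hne hTm hT
  obtain ⟨K, hKC', hK⟩ := exists_minInv hC hC'C hC'cl hC'co hC'ne hC'T
  have hKC : K ⊆ C := hKC'.trans hC'C
  have hb := wcpt_bounded hC
  have hKb : Bornology.IsBounded K := hb.subset hKC
  have hKsep : TopologicalSpace.IsSeparable K := hC'sep.mono hKC'
  have hTK : ∀ x ∈ K, ∀ y ∈ K, ‖T x - T y‖ ≤ ‖x - y‖ :=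
    fun x hx y hy => hT x (hKC hx) y (hKC hy)
  set d : ℝ := Metric.diam K with hd
  have hle : ∀ a ∈ K, ∀ b ∈ K, ‖a - b‖ ≤ d := by
    intro a ha b hb'
    rw [← dist_eq_norm]
    exact Metric.dist_le_diam_of_mem hKb ha hb'
  have hd0 : 0 < d := by
    obtain ⟨z, hz⟩ := hK.ne
    have h1 : 0 < ‖T z - z‖ := by
      rw [norm_pos_iff, sub_ne_zero]
      exact hcon z (hKC hz)
    exact lt_of_lt_of_le h1 (hle _ (hK.maps hz) _ hz)
  -- approximate fixed points, weakly convergent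
  have hap : ∀ n : ℕ, ∃ x ∈ K, ‖T x - x‖ ≤ 1 / ((n : ℝ) + 1) := fun n =>
    exists_approx_fixed hK.ne hKb hK.cl hK.co hK.maps hTK (by (clear * -; positivity))
  choose y hyK hyT using hap
  obtain ⟨v0, hv0, ψ0, hψ0, hweak⟩ := exists_wsubseq hC hKC hK.cl hK.co hKsep y hyK
  have hyT0 : Tendsto (fun n => ‖T (y (ψ0 n)) - y (ψ0 n)‖) atTop (𝓝 0) := by
    have h1 : Tendsto (fun n => ‖T (y n) - y n‖) atTop (𝓝 0) :=
      squeeze_zero (fun n => norm_nonneg _) hyT tendsto_one_div_add_atTop_nhds_zero_nat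
    exact h1.comp hψ0.tendsto_atTop
  -- approximate by generated maps at `v0`
  have hgen : ∀ n : ℕ, ∃ R : X → X, Gen T R ∧ ‖R v0 - y (ψ0 n)‖ ≤ 1 / ((n : ℝ) + 1) :=
    fun n => hK.dense hTK hv0 (hyK _) (by (clear * -; positivity))
  choose R hRG hRy using hgen
  have hRm : ∀ n, MapsTo (R n) K K := fun n => (hRG n).mapsTo hK.co hK.maps
  have hRne : ∀ n, ∀ x ∈ K, ∀ y ∈ K, ‖R n x - R n y‖ ≤ ‖x - y‖ :=
    fun n => (hRG n).ne hK.co hK.maps hTK
  have hRK : ∀ n, R n v0 ∈ K := fun n => hRm n hv0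
  have hRy0 : Tendsto (fun n => ‖R n v0 - y (ψ0 n)‖) atTop (𝓝 0) :=
    squeeze_zero (fun n => norm_nonneg _) hRy tendsto_one_div_add_atTop_nhds_zero_nat
  have huT : Tendsto (fun n => ‖T (R n v0) - R n v0‖) atTop (𝓝 0) := by
    have h1 : Tendsto (fun n => ‖R n v0 - y (ψ0 n)‖ + ‖T (y (ψ0 n)) - y (ψ0 n)‖ +
        ‖R n v0 - y (ψ0 n)‖) atTop (𝓝 0) := by
      simpa only [add_zero] using (hRy0.add hyT0).add hRy0
    refine squeeze_zero (fun n => norm_nonneg _) (fun n => ?_) h1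
    calc ‖T (R n v0) - R n v0‖
        = ‖(T (R n v0) - T (y (ψ0 n))) + (T (y (ψ0 n)) - y (ψ0 n)) - (R n v0 - y (ψ0 n))‖ := by
          congr 1; abel
      _ ≤ ‖(T (R n v0) - T (y (ψ0 n))) + (T (y (ψ0 n)) - y (ψ0 n))‖ + ‖R n v0 - y (ψ0 n)‖ :=
        norm_sub_le _ _
      _ ≤ ‖T (R n v0) - T (y (ψ0 n))‖ + ‖T (y (ψ0 n)) - y (ψ0 n)‖ + ‖R n v0 - y (ψ0 n)‖ :=
        add_le_add (norm_add_le _ _) le_rfl
      _ ≤ _ := add_le_add (add_le_add (hTK _ (hRK n) _ (hyK _)) le_rfl) le_rfl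
  have huweak : ∀ f : StrongDual ℝ X, Tendsto (fun n => f (R n v0)) atTop (𝓝 (f v0)) := by
    intro f
    have h1 : Tendsto (fun n => ‖f‖ * ‖R n v0 - y (ψ0 n)‖) atTop (𝓝 0) := by
      simpa only [mul_zero] using hRy0.const_mul ‖f‖
    have h2 : Tendsto (fun n => f (R n v0 - y (ψ0 n))) atTop (𝓝 0) :=
      squeeze_zero_norm (fun n => f.le_opNorm _) h1
    have h3 := h2.add (hweak f)
    rw [zero_add] at h3
    refine h3.congr fun n => ?_
    rw [map_sub, sub_add_cancel]
  -- functionals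
  obtain ⟨ψ, hψ, φ, hφ1, hφ⟩ := exists_functionals hK.co hK.ne hKsep d (fun n => R n v0)
    (fun n v hv => hle _ (hRK n) _ hv)
    (fun v hv => goebel_karlovitz hC hKC hK hKb hTK (fun n => R n v0) hRK huT hv)
  -- normalize
  have hdinv : 0 < d⁻¹ := inv_pos.2 hd0
  have hback : ∀ x : X, d • (d⁻¹ • (x - v0)) + v0 = x := by
    intro x
    rw [smul_smul, mul_inv_cancel₀ hd0.ne', one_smul, sub_add_cancel]
  set C1 : Set X := {x | d • x + v0 ∈ K} with hC1
  have hR0 : ∀ n : ℕ, d⁻¹ • (R (ψ n) (d • (0 : X) + v0) - v0) = d⁻¹ • (R (ψ n) v0 - v0) := by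
    intro n
    rw [smul_zero, zero_add]
  have hφ0 : Tendsto (fun k => φ k (R (ψ k) v0 - v0)) atTop (𝓝 d) := hφ v0 hv0
  have hφC1 : ∀ v ∈ C1, Tendsto (fun n => φ n v) atTop (𝓝 0) := by
    intro v hv
    have h1 := hφ (d • v + v0) hv
    have h2 : Tendsto (fun k => d⁻¹ * (φ k (R (ψ k) v0 - v0) - φ k (R (ψ k) v0 - (d • v + v0))))
        atTop (𝓝 0) := by
      simpa only [map_sub, map_add, map_smul, smul_eq_mul, sub_sub_sub_cancel_left, add_sub_cancel_right, sub_self,     mul_zero] using (hφ0.sub h1).const_mul d⁻¹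
    refine h2.congr fun k => ?_
    rw [← map_sub, ← smul_eq_mul, ← map_smul]
    congr 1
    rw [sub_sub_sub_cancel_left, add_sub_cancel_right, smul_smul, inv_mul_cancel₀ hd0.ne', one_smul]
  obtain ⟨ν, hν, hpat⟩ := core_signs C1
    (by
      intro x hx z hz a b ha hb' hab
      change d • (a • x + b • z) + v0 ∈ K
      have h1 : d • (a • x + b • z) + v0 = a • (d • x + v0) + b • (d • z + v0) := by
        have h2 : v0 = a • v0 + b • v0 := by rw [← add_smul, hab, one_smul]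
        calc d • (a • x + b • z) + v0 = d • (a • x + b • z) + (a • v0 + b • v0) := by rw [← h2]
          _ = a • (d • x + v0) + b • (d • z + v0) := by
            rw [smul_add, smul_add, smul_add, smul_comm d a, smul_comm d b]; abel
      rw [h1]
      exact hK.co hx hz ha hb' hab)
    (by
      change d • (0 : X) + v0 ∈ K
      rw [smul_zero, zero_add]
      exact hv0)
    (by
      intro x hx z hz
      have h1 := hle _ hx _ hz
      rw [add_sub_add_right_eq_sub, ← smul_sub, norm_smul, Real.norm_of_nonneg hd0.le] at h1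
      exact le_of_mul_le_mul_left (by linarith only [h1]) hd0)
    (fun n x => d⁻¹ • (R (ψ n) (d • x + v0) - v0))
    (by
      intro n x hx
      change d • (d⁻¹ • (R (ψ n) (d • x + v0) - v0)) + v0 ∈ K
      rw [hback]
      exact hRm _ hx)
    (by
      intro n x hx z hz
      rw [← smul_sub, sub_sub_sub_cancel_right, norm_smul, Real.norm_of_nonneg hdinv.le]
      have h1 := hRne (ψ n) _ hx _ hz
      rw [add_sub_add_right_eq_sub, ← smul_sub, norm_smul, Real.norm_of_nonneg hd0.le] at h1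
      rw [inv_mul_le_iff₀ hd0]
      exact h1)
    (by
      intro k
      have h1 : Tendsto (fun n => ‖R (ψ k) (R n v0) - R n v0‖) atTop (𝓝 0) :=
        (hRG (ψ k)).afps hK.co hK.maps hTK (fun n => R n v0) hRK huT
      have h2 : Tendsto (fun n => d⁻¹ * ‖R (ψ k) (R (ψ n) v0) - R (ψ n) v0‖) atTop (𝓝 0) := by
        simpa only [Function.comp_apply, mul_zero] using (h1.comp hψ.tendsto_atTop).const_mul d⁻¹
      refine h2.congr fun n => ?_
      rw [hR0, hback, ← smul_sub, sub_sub_sub_cancel_right, norm_smul, Real.norm_of_nonneg hdinv.le])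
    φ hφ1
    (by
      have h1 : Tendsto (fun k => d⁻¹ * φ k (R (ψ k) v0 - v0)) atTop (𝓝 1) := by
        simpa only [map_sub, ne_eq, hd0.ne', not_false_eq_true, inv_mul_cancel₀] using hφ0.const_mul d⁻¹
      refine h1.congr fun k => ?_
      rw [hR0, map_smul, smul_eq_mul])
    hφC1
    (by
      intro f
      have h1 : Tendsto (fun n => d⁻¹ * (f (R (ψ n) v0) - f v0)) atTop (𝓝 0) := by
        simpa only [Function.comp_apply, sub_self, mul_zero] using     (((huweak f).comp hψ.tendsto_atTop).sub_const (f v0)).const_mul d⁻¹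
      refine h1.congr fun n => ?_
      rw [hR0, map_smul, map_sub, smul_eq_mul])
    hε
  have hspan : Submodule.span ℝ C1 ≤ Submodule.span ℝ (K - K) := by
    rw [Submodule.span_le]
    intro x hx
    have h1 : x = d⁻¹ • ((d • x + v0) - v0) := by
      rw [add_sub_cancel_right, smul_smul, inv_mul_cancel₀ hd0.ne', one_smul]
    rw [h1]
    exact Submodule.smul_mem _ _ (Submodule.subset_span (Set.sub_mem_sub hx hv0))
  have hsub : Submodule.span ℝ (K - K) ≤ Submodule.span ℝ K := by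
    rw [Submodule.span_le]
    rintro _ ⟨x, hx, y, hy, rfl⟩
    exact Submodule.sub_mem _ (Submodule.subset_span hx) (Submodule.subset_span hy)
  refine ⟨K, hKC, hK.ne, hKsep, fun i => φ (ν i), fun i => hφ1 _, ?_, ?_⟩
  · intro x hx y hy
    have h1 : ∀ z ∈ K, Tendsto (fun n => φ n (d⁻¹ • (z - v0))) atTop (𝓝 0) := by
      intro z hz
      refine hφC1 _ ?_
      change d • (d⁻¹ • (z - v0)) + v0 ∈ K
      rw [hback]
      exact hz
    have h2 := ((h1 x hx).sub (h1 y hy)).const_mul d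
    rw [sub_zero, mul_zero] at h2
    have h3 : Tendsto (fun n => φ n (x - y)) atTop (𝓝 0) := by
      refine h2.congr fun n => ?_
      rw [← map_sub, ← smul_eq_mul, ← map_smul, ← smul_sub, smul_smul, mul_inv_cancel₀ hd0.ne',
        one_smul, sub_sub_sub_cancel_right]
    exact h3.comp hν.tendsto_atTop
  · intro θ N
    obtain ⟨g, hg1, hg2, hg3⟩ := hpat θ N
    exact ⟨g, hg1, hspan hg2, hg3⟩

end Vale.Agent.P079.H709
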