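import Vale.Agent.P079.H709.Weak
import Vale.Agent.P079.H880.Arbitrary

set_option linter.all false

open Filter Topology Set

namespace Vale.Agent.P079.H709

open Vale.Agent.P079.H880 (NE Retr norm_weak_limit_le Fx hasSum_half summable_avg avg avg_mem
  norm_tsum_half_le avg_ne isClosed_Fx)

variable {X : Type*} [NormedAddCommGroup X] [NormedSpace ℝ X]

/-- Every closed convex subset of `C0` has fixed points for nonexpansive maps. -/
def FPP (C0 : Set X) : Prop :=
  ∀ K ⊆ C0, K.Nonempty → IsClosed K → Convex ℝ K → ∀ T : X → X, MapsTo T K K →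
    (∀ x ∈ K, ∀ y ∈ K, ‖T x - T y‖ ≤ ‖x - y‖) → ∃ x ∈ K, T x = x

/-- Bruck's retraction theorem. -/
theorem exists_retraction {C0 : Set X} (hC0 : IsCompact (toWeakSpace ℝ X '' C0))
    {C : Set X} (hCC0 : C ⊆ C0) (hcl : IsClosed C) (hb : Bornology.IsBounded C) (hco : Convex ℝ C)
    {F : Set X} (hF : F ⊆ C) (S : Set (X → X)) (hS : ∀ T ∈ S, NE C T)
    (hSF : ∀ T ∈ S, ∀ x ∈ F, T x = x)
    (hfix : ∀ K ⊆ C, K.Nonempty → IsClosed K → Convex ℝ K → (∀ T ∈ S, MapsTo T K K) →
      (K ∩ F).Nonempty) : ∃ r, Retr C F r := by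
  classical
  obtain ⟨M, hM⟩ := hb.exists_norm_le
  let N : Type _ := {f : X → X // NE C f ∧ ∀ x ∈ F, f x = x}
  let rel : N → N → Prop := fun f g => ∀ x ∈ C, ∀ y ∈ C, ‖g.1 x - g.1 y‖ ≤ ‖f.1 x - f.1 y‖
  have hrefl : ∀ f, rel f f := fun f x _ y _ => le_rfl
  haveI : Std.Refl rel := ⟨hrefl⟩
  have htrans : ∀ {f g h : N}, rel f g → rel g h → rel f h :=
    fun {f g h} h1 h2 x hx y hy => (h2 x hx y hy).trans (h1 x hx y hy)
  have hchain : ∀ c : Set N, IsChain rel c → ∃ ub, ∀ a ∈ c, rel a ub := by
    intro c hc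
    rcases c.eq_empty_or_nonempty with h0 | hcne
    · exact ⟨⟨fun x => x, NE.id C, fun x _ => rfl⟩, fun a ha => by simp [h0] at ha⟩
    haveI : Nonempty c := hcne.to_subtype
    let l : Filter c := ⨅ f : c, 𝓟 {g : c | rel f.1 g.1}
    have hl : l.NeBot := by
      refine Filter.iInf_neBot_of_directed' ?_ ?_
      · intro f g
        rcases hc.total f.2 g.2 with h | h
        · refine ⟨g, ?_, ?_⟩
          · exact principal_mono.2 fun k hk => htrans h hk
          · exact le_rfl
        · refine ⟨f, le_rfl, ?_⟩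
          exact principal_mono.2 fun k hk => htrans h hk
      · intro f
        rw [principal_neBot_iff]
        exact ⟨f, hrefl _⟩
    let U : Ultrafilter c := Ultrafilter.of l
    have hlim : ∀ x : X, ∃ y : X, x ∈ C →
        ∀ φ : StrongDual ℝ X, Tendsto (fun g : c => φ (g.1.1 x)) U (𝓝 (φ y)) := by
      intro x
      by_cases hx : x ∈ C
      · obtain ⟨y, -, hy⟩ := wcpt_limit hC0 U (fun g : c => g.1.1 x)
          (fun g => hCC0 (g.1.2.1.1 hx))
        exact ⟨y, fun _ => hy⟩
      · exact ⟨x, fun h => absurd h hx⟩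
    choose h hh using hlim
    have hhNE : NE C h := by
      refine ⟨fun x hx => ?_, fun x hx y hy => ?_⟩
      · exact weak_limit_mem (hh x hx) hco hcl (Eventually.of_forall fun g => g.1.2.1.1 hx)
      · exact norm_weak_limit_le (hh x hx) (hh y hy)
          (Eventually.of_forall fun g => g.1.2.1.2 x hx y hy)
    have hhF : ∀ x ∈ F, h x = x := by
      intro x hx
      have h1 : ‖h x - x‖ ≤ 0 := by
        refine norm_weak_limit_le (y := fun _ : c => x) (hh x (hF hx))
          (fun f => tendsto_const_nhds) (Eventually.of_forall fun g => ?_)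
        simp only [g.1.2.2 x hx, sub_self, norm_zero, le_refl]
      exact sub_eq_zero.1 (norm_le_zero_iff.1 h1)
    refine ⟨⟨h, hhNE, hhF⟩, fun a ha x hx y hy => ?_⟩
    refine norm_weak_limit_le (hh x hx) (hh y hy) ?_
    have h1 : ∀ᶠ g : c in l, rel a g.1 := by
      have h2 : {g : c | rel a g.1} ∈ l :=
        mem_iInf_of_mem (⟨a, ha⟩ : c) (mem_principal_self _)
      exact h2
    have h3 : ∀ᶠ g : c in (U : Filter c), rel a g.1 := h1.filter_mono (Ultrafilter.of_le _)
    exact h3.mono fun g hg => hg x hx y hy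
  obtain ⟨f, hf⟩ := exists_maximal_of_chains_bounded hchain htrans
  -- minimality: composing on the left does not change distances
  have hmin : ∀ g : N, ∀ x ∈ C, ∀ y ∈ C, ‖f.1 x - f.1 y‖ ≤ ‖g.1 (f.1 x) - g.1 (f.1 y)‖ := by
    intro g
    have hgf : ∀ x ∈ F, (fun x => g.1 (f.1 x)) x = x := fun x hx => by
      simp only [f.2.2 x hx, g.2.2 x hx]
    exact hf ⟨fun x => g.1 (f.1 x), g.2.1.comp f.2.1, hgf⟩
      (fun x hx y hy => g.2.1.2 _ (f.2.1.1 hx) _ (f.2.1.1 hy))
  refine ⟨f.1, f.2.1, fun x hx => ?_, f.2.2⟩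
  -- the invariant convex set
  set K0 : Set X := {z | ∃ g : N, z = g.1 (f.1 x)} with hK0
  have hK0C : K0 ⊆ C := by
    rintro z ⟨g, rfl⟩
    exact g.2.1.1 (f.2.1.1 hx)
  have hK0ne : K0.Nonempty := ⟨_, f, rfl⟩
  have hK0co : Convex ℝ K0 := by
    rintro z ⟨g, rfl⟩ w ⟨k, rfl⟩ a b ha hb' hab
    refine ⟨⟨fun x => a • g.1 x + b • k.1 x, NE.combo hco g.2.1 k.2.1 ha hb' hab, ?_⟩, rfl⟩
    intro x hx
    simp only [g.2.2 x hx, k.2.2 x hx]
    rw [← add_smul, hab, one_smul]
  have hKC : closure K0 ⊆ C := closure_minimal hK0C hcl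
  obtain ⟨z, hzK, hzF⟩ := hfix (closure K0) hKC hK0ne.closure isClosed_closure hK0co.closure (by
    intro T hT
    have h1 : MapsTo T K0 K0 := by
      rintro w ⟨g, rfl⟩
      exact ⟨⟨fun x => T (g.1 x), (hS T hT).comp g.2.1, fun x hx => by
        simp only [g.2.2 x hx]
        exact hSF T hT x hx⟩, rfl⟩
    exact h1.closure_of_continuousOn (((hS T hT).continuousOn).mono hKC))
  have hfxz : f.1 x = z := by
    refine eq_of_forall_dist_le fun ε hε => ?_
    obtain ⟨w, ⟨g, rfl⟩, hw⟩ := Metric.mem_closure_iff.1 hzK ε hε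
    have h1 := hmin g x hx z (hF hzF)
    rw [f.2.2 z hzF, g.2.2 z hzF] at h1
    rw [dist_eq_norm]
    rw [dist_comm, dist_eq_norm] at hw
    exact h1.trans hw.le
  rw [hfxz]
  exact hzF

/-- Retraction onto the fixed point set of one nonexpansive map. -/
theorem exists_retraction_single {C0 : Set X} (hC0 : IsCompact (toWeakSpace ℝ X '' C0)) (hF : FPP C0)
    {C : Set X} (hCC0 : C ⊆ C0) (hcl : IsClosed C) (hb : Bornology.IsBounded C) (hco : Convex ℝ C)
    {T : X → X} (hT : NE C T) : ∃ r, Retr C {x | x ∈ C ∧ T x = x} r := by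
  refine exists_retraction hC0 hCC0 hcl hb hco (fun x hx => hx.1) {T} (fun S hS => ?_)
    (fun S hS x hx => ?_) (fun K hKC hKne hKcl hKco hKT => ?_)
  · rw [mem_singleton_iff.1 hS]
    exact hT
  · rw [mem_singleton_iff.1 hS]
    exact hx.2
  · obtain ⟨x, hx, hfx⟩ := hF K (hKC.trans hCC0) hKne hKcl hKco T
      (hKT T (mem_singleton _)) (fun x hx y hy => hT.2 x (hKC hx) y (hKC hy))
    exact ⟨x, hx, hKC hx, hfx⟩

/-- Retractions onto common fixed point sets of finite commuting families. -/
theorem exists_retr_finset {ι : Type*}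
    {C0 : Set X} (hC0 : IsCompact (toWeakSpace ℝ X '' C0)) (hF : FPP C0)
    {C : Set X} (hCC0 : C ⊆ C0) (hcl : IsClosed C) (hb : Bornology.IsBounded C) (hco : Convex ℝ C)
    {T : ι → X → X} (hT : ∀ i, NE C (T i))
    (hcomm : ∀ i j, ∀ x ∈ C, T i (T j x) = T j (T i x)) (A : Finset ι) :
    ∃ r, Retr C (Fx C T (A : Set ι)) r := by
  classical
  induction A using Finset.induction_on with
  | empty =>
      refine ⟨fun x => x, NE.id C, fun x hx => ⟨hx, ?_⟩, fun x _ => rfl⟩
      intro i hi
      simp at hi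
  | insert i A _ ih =>
      obtain ⟨r, hr1, hr2, hr3⟩ := ih
      obtain ⟨s, hs1, hs2, hs3⟩ := exists_retraction_single hC0 hF hCC0 hcl hb hco ((hT i).comp hr1)
      have key : Fx C T ((insert i A : Finset ι) : Set ι) = {x | x ∈ C ∧ T i (r x) = x} := by
        ext x
        constructor
        · rintro ⟨hxC, hx⟩
          have h1 : x ∈ Fx C T (A : Set ι) := ⟨hxC, fun j hj => hx j (by simp [hj])⟩
          refine ⟨hxC, ?_⟩
          rw [hr3 x h1]
          exact hx i (by simp)
        · rintro ⟨hxC, hx⟩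
          have h1 : x ∈ Fx C T (A : Set ι) := by
            refine ⟨hxC, fun j hj => ?_⟩
            conv_lhs => rw [← hx]
            rw [hcomm j i _ (hr1.1 hxC), (hr2 x hxC).2 j hj]
            exact hx
          refine ⟨hxC, fun j hj => ?_⟩
          rw [Finset.coe_insert, mem_insert_iff] at hj
          rcases hj with rfl | hj
          · have h2 := hx
            rwa [hr3 x h1] at h2
          · exact h1.2 j hj
      rw [key]
      exact ⟨s, hs1, hs2, hs3⟩

/-- The averaging lemma: common fixed points of a decreasing sequence of retractions. -/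
theorem exists_common_seq [CompleteSpace X]
    {C0 : Set X} (hF : FPP C0)
    {K : Set X} (hKC0 : K ⊆ C0) (hne : K.Nonempty) (hcl : IsClosed K) (hb : Bornology.IsBounded K)
    (hco : Convex ℝ K) {r : ℕ → X → X} (hr : ∀ n, NE K (r n))
    (hrr : ∀ m n, m ≤ n → ∀ x ∈ K, r m (r n x) = r n x) :
    ∃ x ∈ K, ∀ n, r n x = x := by
  obtain ⟨x, hx, hfx⟩ := hF K hKC0 hne hcl hco _
    (avg_ne hcl hb hco hr).1 (avg_ne hcl hb hco hr).2
  refine ⟨x, hx, ?_⟩
  obtain ⟨M, hM⟩ := hb.exists_norm_le
  have hM' : ∀ y ∈ K, ∀ z ∈ K, ‖y - z‖ ≤ 2 * M := fun y hy z hz => by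
    have h1 := norm_sub_le y z
    have h2 := hM y hy
    have h3 := hM z hz
    linarith
  set a : ℕ → ℝ := fun n => ‖x - r n x‖ with ha
  have ha0 : ∀ n, 0 ≤ a n := fun n => norm_nonneg _
  have haM : ∀ n, a n ≤ 2 * M := fun n => hM' x hx _ ((hr n).1 hx)
  -- the halving step
  have half : ∀ B : ℝ, (∀ n, a n ≤ B) → ∀ m, a m ≤ B / 2 := by
    intro B hB m
    have hB0 : 0 ≤ B := (ha0 0).trans (hB 0)
    have hs : Summable (fun n => (1 / 2 : ℝ) ^ (n + 1) • r n x) :=
      summable_avg (M := M) fun n => hM _ ((hr n).1 hx)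
    have hc : HasSum (fun n : ℕ => (1 / 2 : ℝ) ^ (n + 1) • r m x) (r m x) := by
      simpa using hasSum_half.smul_const (r m x)
    have e : x - r m x = ∑' n, (1 / 2 : ℝ) ^ (n + 1) • (r n x - r m x) := by
      calc x - r m x = avg r x - r m x := by rw [hfx]
        _ = (∑' n, (1 / 2 : ℝ) ^ (n + 1) • r n x) - ∑' n : ℕ, (1 / 2 : ℝ) ^ (n + 1) • r m x := by
            rw [hc.tsum_eq, avg]
        _ = ∑' n, ((1 / 2 : ℝ) ^ (n + 1) • r n x - (1 / 2 : ℝ) ^ (n + 1) • r m x) :=
            (hs.tsum_sub hc.summable).symm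
        _ = _ := tsum_congr fun n => by rw [smul_sub]
    have hd : ∀ n, ‖r n x - r m x‖ ≤ if n < m then a m else if n = m then 0 else B := by
      intro n
      split_ifs with h h'
      · have h1 := (hr n).2 x hx _ ((hr m).1 hx)
        rwa [hrr n m h.le x hx] at h1
      · rw [h', sub_self, norm_zero]
      · have h1 := (hr m).2 _ ((hr n).1 hx) x hx
        rw [hrr m n (by omega) x hx] at h1
        refine h1.trans ?_
        rw [norm_sub_rev]
        exact hB n
    have h2 : a m ≤ ∑' n : ℕ, (1 / 2 : ℝ) ^ (n + 1)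
        * (if n < m then a m else if n = m then 0 else B) := by
      rw [ha]
      show ‖x - r m x‖ ≤ _
      conv_lhs => rw [e]
      refine norm_tsum_half_le (M := B) hd (fun n => ?_) (fun n => ?_)
      · split_ifs
        · exact hB m
        · exact hB0
        · exact le_rfl
      · split_ifs
        · exact ha0 m
        · exact le_rfl
        · exact hB0
    have h3 : (∑' n : ℕ, (1 / 2 : ℝ) ^ (n + 1)
          * (if n < m then a m else if n = m then 0 else B))
        = (1 - (1 / 2 : ℝ) ^ m) * a m + (1 / 2 : ℝ) ^ (m + 1) * B := by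
      have e1 : (fun n : ℕ => (1 / 2 : ℝ) ^ (n + 1)
            * (if n < m then a m else if n = m then 0 else B))
          = fun n : ℕ => (1 / 2 : ℝ) ^ (n + 1) * B
            + (if n ∈ Finset.range (m + 1) then
                (1 / 2 : ℝ) ^ (n + 1) * (if n = m then -B else a m - B) else 0) := by
        funext n
        simp only [Finset.mem_range]
        rcases lt_trichotomy n m with h | h | h
        · rw [if_pos h, if_pos (by omega), if_neg (by omega)]
          ring
        · rw [if_neg (by omega), if_pos h, if_pos (by omega), if_pos h]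
          ring
        · rw [if_neg (by omega), if_neg (by omega), if_neg (by omega)]
          ring
      have hfin : HasSum (fun n : ℕ =>
          if n ∈ Finset.range (m + 1) then
            (1 / 2 : ℝ) ^ (n + 1) * (if n = m then -B else a m - B) else 0)
          (∑ n ∈ Finset.range (m + 1), (1 / 2 : ℝ) ^ (n + 1) * (if n = m then -B else a m - B)) := by
        have h4 := hasSum_sum_of_ne_finset_zero (L := SummationFilter.unconditional ℕ)
          (f := fun n : ℕ =>
          if n ∈ Finset.range (m + 1) then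
            (1 / 2 : ℝ) ^ (n + 1) * (if n = m then -B else a m - B) else 0)
          (s := Finset.range (m + 1)) (fun n hn => by simp only [hn, if_false])
        have h5 : (∑ n ∈ Finset.range (m + 1), (fun n : ℕ =>
            if n ∈ Finset.range (m + 1) then
            (1 / 2 : ℝ) ^ (n + 1) * (if n = m then -B else a m - B) else 0) n)
            = ∑ n ∈ Finset.range (m + 1),
              (1 / 2 : ℝ) ^ (n + 1) * (if n = m then -B else a m - B) :=
          Finset.sum_congr rfl fun n hn => by simp only [hn, if_true]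
        rw [h5] at h4
        exact h4
      have hsum : ∀ k : ℕ, ∑ n ∈ Finset.range k, (1 / 2 : ℝ) ^ (n + 1) = 1 - (1 / 2 : ℝ) ^ k := by
        intro k
        induction k with
        | zero => simp
        | succ k ih =>
            rw [Finset.sum_range_succ, ih]
            ring
      have hlast : ∑ n ∈ Finset.range (m + 1), (1 / 2 : ℝ) ^ (n + 1)
            * (if n = m then -B else a m - B)
          = (1 - (1 / 2 : ℝ) ^ m) * (a m - B) - (1 / 2 : ℝ) ^ (m + 1) * B := by
        rw [Finset.sum_range_succ, if_pos rfl]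
        have h6 : ∑ n ∈ Finset.range m, (1 / 2 : ℝ) ^ (n + 1) * (if n = m then -B else a m - B)
            = ∑ n ∈ Finset.range m, (1 / 2 : ℝ) ^ (n + 1) * (a m - B) :=
          Finset.sum_congr rfl fun n hn => by
            rw [if_neg (by have := Finset.mem_range.1 hn; omega)]
        rw [h6, ← Finset.sum_mul, hsum]
        ring
      rw [e1]
      have h5 := ((hasSum_half.mul_right B).add hfin).tsum_eq
      rw [h5, hlast]
      ring
    rw [h3] at h2
    have hp : (0 : ℝ) < (1 / 2 : ℝ) ^ m := by positivity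
    have hp2 : (1 / 2 : ℝ) ^ (m + 1) = (1 / 2 : ℝ) ^ m * (1 / 2) := pow_succ _ _
    rw [hp2] at h2
    have h4 : (1 / 2 : ℝ) ^ m * a m ≤ (1 / 2 : ℝ) ^ m * (B / 2) := by linarith
    exact le_of_mul_le_mul_left h4 hp
  have iter : ∀ k : ℕ, ∀ m, a m ≤ 2 * M * (1 / 2) ^ k := by
    intro k
    induction k with
    | zero => intro m; simpa using haM m
    | succ k ih =>
        intro m
        have h1 := half _ ih m
        rw [pow_succ]
        linarith
  intro n
  have h1 : Tendsto (fun k : ℕ => 2 * M * (1 / 2 : ℝ) ^ k) atTop (𝓝 (2 * M * 0)) :=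
    (tendsto_pow_atTop_nhds_zero_of_lt_one (by norm_num) (by norm_num)).const_mul _
  rw [mul_zero] at h1
  have h2 : a n ≤ 0 := ge_of_tendsto h1 (Eventually.of_forall fun k => iter k n)
  have h3 : ‖x - r n x‖ ≤ 0 := h2
  exact (sub_eq_zero.1 (norm_le_zero_iff.1 h3)).symm



/-- Retractions onto common fixed point sets of countable commuting families. -/
theorem exists_retr_countable [CompleteSpace X] {ι : Type*}
    {C0 : Set X} (hC0 : IsCompact (toWeakSpace ℝ X '' C0)) (hF : FPP C0)
    {C : Set X} (hCC0 : C ⊆ C0) (hcl : IsClosed C) (hb : Bornology.IsBounded C) (hco : Convex ℝ C)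
    {T : ι → X → X} (hT : ∀ i, NE C (T i))
    (hcomm : ∀ i j, ∀ x ∈ C, T i (T j x) = T j (T i x)) {A : Set ι} (hA : A.Countable) :
    ∃ r, Retr C (Fx C T A) r := by
  classical
  rcases A.eq_empty_or_nonempty with h0 | hAne
  · refine ⟨fun x => x, NE.id C, fun x hx => ⟨hx, ?_⟩, fun x _ => rfl⟩
    intro i hi
    simp [h0] at hi
  obtain ⟨e, rfl⟩ := hA.exists_eq_range hAne
  -- finite stages
  let B : ℕ → Finset ι := fun n => (Finset.range (n + 1)).image e
  have hBmono : ∀ m n, m ≤ n → (B m : Set ι) ⊆ B n := by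
    intro m n hmn i hi
    simp only [B, Finset.coe_image, Finset.coe_range, mem_image, mem_Iio] at hi ⊢
    obtain ⟨k, hk, rfl⟩ := hi
    exact ⟨k, by omega, rfl⟩
  choose r hr using fun n => exists_retr_finset hC0 hF hCC0 hcl hb hco hT hcomm (B n)
  have hFx : Fx C T (range e) = {x | x ∈ C ∧ ∀ n, r n x = x} := by
    ext x
    constructor
    · rintro ⟨hxC, hx⟩
      refine ⟨hxC, fun n => (hr n).2.2 x ⟨hxC, fun i hi => ?_⟩⟩
      simp only [B, Finset.coe_image, mem_image] at hi
      obtain ⟨k, _, rfl⟩ := hi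
      exact hx _ (mem_range_self k)
    · rintro ⟨hxC, hx⟩
      refine ⟨hxC, ?_⟩
      rintro i ⟨k, rfl⟩
      have h1 := (hr k).2.1 x hxC
      rw [hx k] at h1
      refine h1.2 _ ?_
      simp only [B, Finset.coe_image, Finset.coe_range, mem_image, mem_Iio]
      exact ⟨k, by omega, rfl⟩
  rw [hFx]
  refine exists_retraction hC0 hCC0 hcl hb hco (fun x hx => hx.1) (range r) ?_ ?_ ?_
  · rintro S ⟨n, rfl⟩
    exact (hr n).1
  · rintro S ⟨n, rfl⟩ x hx
    exact hx.2 n
  · intro K hKC hKne hKcl hKco hK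
    obtain ⟨x, hxK, hx⟩ := exists_common_seq hF (hKC.trans hCC0) hKne hKcl (hb.subset hKC) hKco
      (r := r) (fun n => (hr n).1.mono hKC (hK _ (mem_range_self n))) (by
        intro m n hmn x hx
        have h1 := (hr n).2.1 x (hKC hx)
        exact (hr m).2.2 _ (Fx.anti C T (hBmono m n hmn) h1))
    exact ⟨x, hxK, hKC hxK, hx⟩

/-- The common fixed point theorem for arbitrary commuting families. -/
theorem exists_common [CompleteSpace X] {ι : Type*}
    {C0 : Set X} (hC0 : IsCompact (toWeakSpace ℝ X '' C0)) (hF : FPP C0)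
    {C : Set X} (hCC0 : C ⊆ C0) (hne : C.Nonempty) (hcl : IsClosed C) (hb : Bornology.IsBounded C)
    (hco : Convex ℝ C) {T : ι → X → X} (hT : ∀ i, NE C (T i))
    (hcomm : ∀ i j, ∀ x ∈ C, T i (T j x) = T j (T i x)) :
    ∃ x ∈ C, ∀ i, T i x = x := by
  classical
  -- a retraction for every set of indices (meaningful for countable sets)
  have hR : ∀ A : Set ι, ∃ r : X → X, A.Countable → Retr C (Fx C T A) r := by
    intro A
    by_cases hA : A.Countable
    · obtain ⟨r, hr⟩ := exists_retr_countable hC0 hF hCC0 hcl hb hco hT hcomm hA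
      exact ⟨r, fun _ => hr⟩
    · exact ⟨fun x => x, fun h => absurd h hA⟩
  choose R hR using hR
  obtain ⟨c, hc⟩ := hne
  have hFne : ∀ A : Set ι, A.Countable → (Fx C T A).Nonempty :=
    fun A hA => ⟨_, (hR A hA).2.1 c hc⟩
  obtain ⟨M, hM⟩ := hb.exists_norm_le
  have hdiam : ∀ y ∈ C, ∀ z ∈ C, dist y z ≤ 2 * M := fun y hy z hz => by
    have h1 := norm_sub_le y z
    have h2 := hM y hy
    have h3 := hM z hz
    rw [dist_eq_norm]
    linarith
  -- the function phi
  let Φ : X → Set ℝ := fun y => {d | ∃ A : Set ι, A.Countable ∧ d = Metric.infDist y (Fx C T A)}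
  have hΦne : ∀ y, (Φ y).Nonempty := fun y => ⟨_, ∅, countable_empty, rfl⟩
  have hΦb : ∀ y ∈ C, BddAbove (Φ y) := by
    intro y hy
    refine ⟨2 * M, ?_⟩
    rintro d ⟨A, hA, rfl⟩
    obtain ⟨z, hz⟩ := hFne A hA
    exact (Metric.infDist_le_dist_of_mem hz).trans (hdiam y hy z hz.1)
  let φ : X → ℝ := fun y => sSup (Φ y)
  have hφle : ∀ y ∈ C, ∀ A : Set ι, A.Countable → Metric.infDist y (Fx C T A) ≤ φ y :=
    fun y hy A hA => le_csSup (hΦb y hy) ⟨A, hA, rfl⟩
  have hφlip : ∀ y ∈ C, ∀ z ∈ C, φ y ≤ φ z + dist y z := by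
    intro y hy z hz
    refine csSup_le (hΦne y) ?_
    rintro d ⟨A, hA, rfl⟩
    exact (Metric.infDist_le_infDist_add_dist).trans (add_le_add_left (hφle z hz A hA) _)
  -- phi is attained
  have hatt : ∀ y : X, ∃ A : Set ι, A.Countable ∧ (y ∈ C → ∀ B : Set ι, A ⊆ B → B.Countable →
      φ y ≤ Metric.infDist y (Fx C T B)) := by
    intro y
    by_cases hy : y ∈ C
    · have h1 : ∀ n : ℕ, ∃ A : Set ι, A.Countable ∧
          φ y - 1 / ((n : ℝ) + 1) < Metric.infDist y (Fx C T A) := by
        intro n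
        have h2 : φ y - 1 / ((n : ℝ) + 1) < sSup (Φ y) := by
          have : (0 : ℝ) < 1 / ((n : ℝ) + 1) := by positivity
          show φ y - 1 / ((n : ℝ) + 1) < φ y
          linarith
        obtain ⟨d, ⟨A, hA, rfl⟩, hd⟩ := exists_lt_of_lt_csSup (hΦne y) h2
        exact ⟨A, hA, hd⟩
      choose A hA hAd using h1
      refine ⟨⋃ n, A n, countable_iUnion hA, fun _ B hB hBc => ?_⟩
      have h3 : ∀ n : ℕ, φ y - 1 / ((n : ℝ) + 1) ≤ Metric.infDist y (Fx C T B) := by
        intro n
        refine (hAd n).le.trans (Metric.infDist_le_infDist_of_subset ?_ (hFne B hBc))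
        exact Fx.anti C T ((subset_iUnion A n).trans hB)
      have h4 : Tendsto (fun n : ℕ => φ y - 1 / ((n : ℝ) + 1)) atTop (𝓝 (φ y - 0)) :=
        tendsto_const_nhds.sub tendsto_one_div_add_atTop_nhds_zero_nat
      rw [sub_zero] at h4
      exact le_of_tendsto h4 (Eventually.of_forall h3)
    · exact ⟨∅, countable_empty, fun h => absurd h hy⟩
  choose Q hQc hQ using hatt
  -- dense sequences in separable sets
  have hdense : ∀ E : Set X, ∃ D : Set X, TopologicalSpace.IsSeparable E →
      D.Countable ∧ D ⊆ E ∧ E ⊆ closure D := by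
    intro E
    by_cases hE : TopologicalSpace.IsSeparable E
    · obtain ⟨D, hDE, hDc, hED⟩ := hE.exists_countable_dense_subset
      exact ⟨D, fun _ => ⟨hDc, hDE, hED⟩⟩
    · exact ⟨∅, fun h => absurd h hE⟩
  choose D hD using hdense
  -- the closing off recursion
  let step : Set ι × Set (X → X) × Set X → Set ι × Set (X → X) × Set X := fun s =>
    (s.1 ∪ ⋃ y ∈ D s.2.2, Q y,
      insert (R (s.1 ∪ ⋃ y ∈ D s.2.2, Q y)) s.2.1,
      closure (convexHull ℝ (s.2.2 ∪ ⋃ f ∈ s.2.1, f '' s.2.2)))
  let s0 : Set ι × Set (X → X) × Set X := (∅, {R ∅}, {c})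
  let s : ℕ → Set ι × Set (X → X) × Set X := fun n => step^[n] s0
  have hs_succ : ∀ n, s (n + 1) = step (s n) := fun n => by
    show step^[n + 1] s0 = step (step^[n] s0)
    rw [Function.iterate_succ_apply']
  let A : ℕ → Set ι := fun n => (s n).1
  let 𝓡 : ℕ → Set (X → X) := fun n => (s n).2.1
  let E : ℕ → Set X := fun n => (s n).2.2
  have hA_succ : ∀ n, A (n + 1) = A n ∪ ⋃ y ∈ D (E n), Q y := fun n => by
    show (s (n + 1)).1 = _
    rw [hs_succ]
  have h𝓡_succ : ∀ n, 𝓡 (n + 1) = insert (R (A (n + 1))) (𝓡 n) := fun n => by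
    show (s (n + 1)).2.1 = _
    rw [hA_succ, hs_succ]
  have hE_succ : ∀ n, E (n + 1) = closure (convexHull ℝ (E n ∪ ⋃ f ∈ 𝓡 n, f '' E n)) := fun n => by
    show (s (n + 1)).2.2 = _
    rw [hs_succ]
  have inv : ∀ n, (A n).Countable ∧ (𝓡 n).Countable ∧ (∀ f ∈ 𝓡 n, NE C f) ∧
      TopologicalSpace.IsSeparable (E n) ∧ E n ⊆ C ∧ R (A n) ∈ 𝓡 n := by
    intro n
    induction n with
    | zero =>
        refine ⟨countable_empty, countable_singleton _, ?_, ?_, ?_, ?_⟩
        · intro f hf
          have h1 : f = R ∅ := hf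
          rw [h1]
          exact (hR ∅ countable_empty).1
        · exact (countable_singleton c).isSeparable
        · intro x hx
          have h1 : x = c := hx
          rw [h1]
          exact hc
        · exact mem_singleton _
    | succ n ih =>
        obtain ⟨h1, h2, h3, h4, h5, h6⟩ := ih
        have hA1 : (A (n + 1)).Countable := by
          rw [hA_succ]
          exact h1.union ((hD _ h4).1.biUnion fun y _ => hQc y)
        refine ⟨hA1, ?_, ?_, ?_, ?_, ?_⟩
        · rw [h𝓡_succ]
          exact h2.insert _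
        · intro f hf
          rw [h𝓡_succ] at hf
          rcases mem_insert_iff.1 hf with rfl | hf
          · exact (hR _ hA1).1
          · exact h3 f hf
        · rw [hE_succ]
          have h7 : TopologicalSpace.IsSeparable (E n ∪ ⋃ f ∈ 𝓡 n, f '' E n) := by
            refine h4.union ?_
            haveI := h2.to_subtype
            rw [biUnion_eq_iUnion]
            refine TopologicalSpace.IsSeparable.iUnion fun f : 𝓡 n => ?_
            exact ((h3 f.1 f.2).continuousOn.mono h5).isSeparable_image h4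
          exact (h7.span.mono (convexHull_min Submodule.subset_span (Submodule.convex _))).closure
        · rw [hE_succ]
          refine closure_minimal (convexHull_min ?_ hco) hcl
          refine union_subset h5 (iUnion₂_subset fun f hf => ?_)
          rintro _ ⟨x, hx, rfl⟩
          exact (h3 f hf).1 (h5 hx)
        · rw [h𝓡_succ]
          exact mem_insert _ _
  have hAmono : Monotone A := monotone_nat_of_le_succ fun n => by
    rw [hA_succ]
    exact subset_union_left
  have h𝓡mono : Monotone 𝓡 := monotone_nat_of_le_succ fun n => by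
    rw [h𝓡_succ]
    exact subset_insert _ _
  have hEmono : Monotone E := monotone_nat_of_le_succ fun n => by
    rw [hE_succ]
    exact (subset_union_left.trans (subset_convexHull ℝ _)).trans subset_closure
  have hEconv : ∀ n, Convex ℝ (E n) := by
    intro n
    cases n with
    | zero => exact convex_singleton c
    | succ n =>
        rw [hE_succ]
        exact (convex_convexHull ℝ _).closure
  -- the limit set
  set K : Set X := closure (⋃ n, E n) with hK
  have hKC : K ⊆ C := closure_minimal (iUnion_subset fun n => (inv n).2.2.2.2.1) hcl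
  have hKco : Convex ℝ K := by
    refine Convex.closure ?_
    exact (directed_of_isDirected_le hEmono).convex_iUnion fun {n} => hEconv n
  have hKne : K.Nonempty := ⟨c, subset_closure (mem_iUnion.2 ⟨0, mem_singleton c⟩)⟩
  have hrK : ∀ n, MapsTo (R (A n)) K K := by
    intro n
    have h1 : MapsTo (R (A n)) (⋃ n, E n) (⋃ n, E n) := by
      intro x hx
      obtain ⟨m, hm⟩ := mem_iUnion.1 hx
      refine mem_iUnion.2 ⟨max n m + 1, ?_⟩
      rw [hE_succ]
      refine subset_closure (subset_convexHull ℝ _ (Or.inr ?_))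
      refine mem_iUnion₂.2 ⟨R (A n), h𝓡mono (le_max_left n m) (inv n).2.2.2.2.2, ?_⟩
      exact mem_image_of_mem _ (hEmono (le_max_right n m) hm)
    exact h1.closure_of_continuousOn (((hR _ (inv n).1).1.continuousOn).mono hKC)
  obtain ⟨x, hxK, hx⟩ := exists_common_seq hF (hKC.trans hCC0) hKne isClosed_closure (hb.subset hKC) hKco
    (r := fun n => R (A n)) (fun n => ((hR _ (inv n).1).1).mono hKC (hrK n)) (by
      intro m n hmn x hx
      have h1 := (hR _ (inv n).1).2.1 x (hKC hx)
      exact (hR _ (inv m).1).2.2 _ (Fx.anti C T (hAmono hmn) h1))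
  have hxC : x ∈ C := hKC hxK
  have hxA : ∀ n, x ∈ Fx C T (A n) := by
    intro n
    have h1 := (hR _ (inv n).1).2.1 x hxC
    rwa [hx n] at h1
  set Aω : Set ι := ⋃ n, A n with hAω
  have hAωc : Aω.Countable := countable_iUnion fun n => (inv n).1
  have hxω : x ∈ Fx C T Aω := ⟨hxC, fun i hi => by
    obtain ⟨n, hn⟩ := mem_iUnion.1 hi
    exact (hxA n).2 i hn⟩
  -- phi is small near x
  have hφx : φ x ≤ 0 := by
    refine le_of_forall_pos_le_add fun ε hε => ?_
    obtain ⟨y, hyE, hy⟩ := Metric.mem_closure_iff.1 hxK (ε / 4) (by linarith)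
    obtain ⟨n, hn⟩ := mem_iUnion.1 hyE
    have hyE' : y ∈ closure (D (E n)) := (hD _ (inv n).2.2.2.1).2.2 hn
    obtain ⟨z, hzD, hz⟩ := Metric.mem_closure_iff.1 hyE' (ε / 4) (by linarith)
    have hzC : z ∈ C := (inv n).2.2.2.2.1 ((hD _ (inv n).2.2.2.1).2.1 hzD)
    have hQz : Q z ⊆ Aω := by
      refine subset_trans ?_ (subset_iUnion A (n + 1))
      rw [hA_succ]
      exact (subset_biUnion_of_mem (u := fun y => Q y) hzD).trans subset_union_right
    have h1 := hQ z hzC Aω hQz hAωc
    have h2 : Metric.infDist z (Fx C T Aω) ≤ dist z x := Metric.infDist_le_dist_of_mem hxω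
    have h3 := hφlip x hxC z hzC
    have h4 : dist x z ≤ dist x y + dist y z := dist_triangle _ _ _
    have h5 : dist z x = dist x z := dist_comm _ _
    linarith
  refine ⟨x, hxC, fun i => ?_⟩
  have h1 : Metric.infDist x (Fx C T {i}) ≤ 0 :=
    (hφle x hxC {i} (countable_singleton i)).trans hφx
  have h2 : x ∈ closure (Fx C T {i}) :=
    (Metric.mem_closure_iff_infDist_zero (hFne _ (countable_singleton i))).2
      (le_antisymm h1 Metric.infDist_nonneg)
  rw [(isClosed_Fx hcl hT {i}).closure_eq] at h2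
  exact h2.2 i (mem_singleton i)

/-- Nonexpansive retraction onto the common fixed point set of an arbitrary commuting family. -/
theorem exists_common_retr [CompleteSpace X] {ι : Type*}
    {C0 : Set X} (hC0 : IsCompact (toWeakSpace ℝ X '' C0)) (hF : FPP C0)
    {C : Set X} (hCC0 : C ⊆ C0) (hcl : IsClosed C) (hb : Bornology.IsBounded C)
    (hco : Convex ℝ C) {T : ι → X → X} (hT : ∀ i, NE C (T i))
    (hcomm : ∀ i j, ∀ x ∈ C, T i (T j x) = T j (T i x)) :
    ∃ r, Retr C {x | x ∈ C ∧ ∀ i, T i x = x} r := by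
  refine exists_retraction hC0 hCC0 hcl hb hco (fun x hx => hx.1) (range T) ?_ ?_ ?_
  · rintro S ⟨n, rfl⟩
    exact hT n
  · rintro S ⟨n, rfl⟩ x hx
    exact hx.2 n
  · intro K hKC hKne hKcl hKco hK
    obtain ⟨x, hxK, hx⟩ := exists_common hC0 hF (hKC.trans hCC0) hKne hKcl (hb.subset hKC) hKco (T := T)
      (fun i => (hT i).mono hKC (hK _ (mem_range_self i)))
      (fun i j x hx => hcomm i j x (hKC hx))
    exact ⟨x, hxK, hKC hxK, hx⟩

end Vale.Agent.P079.H709
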