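import Vale.Agent.P079.H709.Sob
import Vale.Agent.P079.H709.Fam
import Vale.Agent.P079.H709.Defs

set_option linter.all false

open Filter Topology Set Pointwise ZeroAtInfty

namespace Vale.Agent.P079.H709

universe u v

variable {X : Type u} [NormedAddCommGroup X] [NormedSpace ℝ X]

/-- From ambient fixed point statements to commuting families of maps of `C`. -/
theorem common_of_fpp [CompleteSpace X] {C : Set X} (hC : IsCompact (toWeakSpace ℝ X '' C))
    (hne : C.Nonempty) (hco : Convex ℝ C) (hF : FPP C) : CommonFixedPoints.{u, v} C := by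
  classical
  intro I T hT hcomm
  have hcl := wcpt_closed hC
  have hb := wcpt_bounded hC
  let S : I → X → X := fun i x => if h : x ∈ C then (T i ⟨x, h⟩ : X) else x
  have hS : ∀ (i : I) (x : X) (h : x ∈ C), S i x = (T i ⟨x, h⟩ : X) := by
    intro i x h
    simp only [S, dif_pos h]
  have hNE : ∀ i, Vale.Agent.P079.H880.NE C (S i) := by
    intro i
    refine ⟨fun x hx => ?_, fun x hx y hy => ?_⟩
    · rw [hS i x hx]
      exact (T i ⟨x, hx⟩).2
    · rw [hS i x hx, hS i y hy]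
      exact hT i ⟨x, hx⟩ ⟨y, hy⟩
  have hSc : ∀ i j, ∀ x ∈ C, S i (S j x) = S j (S i x) := by
    intro i j x hx
    have h1 : S i (S j x) = (T i (T j ⟨x, hx⟩) : X) := by
      rw [hS j x hx, hS i _ (T j ⟨x, hx⟩).2]
    have h2 : S j (S i x) = (T j (T i ⟨x, hx⟩) : X) := by
      rw [hS i x hx, hS j _ (T i ⟨x, hx⟩).2]
    rw [h1, h2, hcomm]
  obtain ⟨r, ⟨hr1, hr2⟩, hr3, hr4⟩ :=
    exists_common_retr hC hF (Subset.refl C) hcl hb hco hNE hSc
  have hfix : ∀ (a : C) (i : I), T i ⟨r a, hr1 a.2⟩ = ⟨r a, hr1 a.2⟩ := by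
    intro a i
    have h1 := (hr3 a a.2).2 i
    rw [hS i _ (hr1 a.2)] at h1
    exact Subtype.ext h1
  refine ⟨?_, fun a => ⟨r a, hr1 a.2⟩, fun a b => hr2 a a.2 b b.2, hfix, fun a ha => ?_⟩
  · obtain ⟨c, hc⟩ := hne
    exact ⟨⟨r c, hr1 hc⟩, hfix ⟨c, hc⟩⟩
  · refine Subtype.ext (hr4 a ⟨a.2, fun i => ?_⟩)
    rw [hS i _ a.2]
    exact congrArg Subtype.val (ha i)

/-- A fixed point free map of `C` gives quotient maps onto `c_0`. -/
theorem c0_of_free [CompleteSpace X] {C : Set X} (hne : C.Nonempty) (hco : Convex ℝ C)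
    (hC : IsCompact (toWeakSpace ℝ X '' C)) (T : C → C)
    (hT : ∀ a b : C, ‖(T a : X) - (T b : X)‖ ≤ ‖(a : X) - (b : X)‖) (hfree : ∀ a : C, T a ≠ a)
    {η : ℝ} (hη : 0 < η) :
    ∃ Y : Submodule ℝ X, IsClosed (Y : Set X) ∧ TopologicalSpace.IsSeparable (Y : Set X) ∧
      Y ≤ (Submodule.span ℝ C).topologicalClosure ∧
      ∃ S : Y →L[ℝ] C₀(ℕ, ℝ), ‖S‖ ≤ 1 ∧ ∀ a : C₀(ℕ, ℝ), ∃ y : Y, S y = a ∧ ‖y‖ ≤ (1 + η) * ‖a‖ := by
  classical
  refine c0_quotient hC hne hco (T := fun x => if h : x ∈ C then (T ⟨x, h⟩ : X) else x)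
    ?_ ?_ ?_ hη
  · intro x hx
    simp only [dif_pos hx]
    exact (T ⟨x, hx⟩).2
  · intro x hx y hy
    simp only [dif_pos hx, dif_pos hy]
    exact hT ⟨x, hx⟩ ⟨y, hy⟩
  · intro x hx h
    simp only [dif_pos hx] at h
    exact hfree ⟨x, hx⟩ (Subtype.ext h)

/-- Fixed points when no separable closed subspace of the closed span maps onto `c_0`. -/
theorem fpp_of_no_quotient [CompleteSpace X] {C : Set X} (hC : IsCompact (toWeakSpace ℝ X '' C))
    (hq : ¬ SpanMapsOntoC0 C) : FPP C := by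
  intro K hKC hne hcl hco T hTm hT
  by_contra hcon
  push Not at hcon
  obtain ⟨Y, h1, h2, h3, S, h4, h5⟩ := c0_quotient (wcpt_mono hC hKC hcl hco) hne hco hTm hT hcon
    (show (0 : ℝ) < 1 by norm_num)
  refine hq ⟨Y, h1, h2, h3.trans (Submodule.topologicalClosure_mono (Submodule.span_mono hKC)),
    S, fun a => ?_⟩
  obtain ⟨y, hy, -⟩ := h5 a
  exact ⟨y, hy⟩

theorem fpp_of_separable [CompleteSpace X] [TopologicalSpace.SeparableSpace X]
    (hX : ¬ MapsOntoC0 X) {C : Set X} (hC : IsCompact (toWeakSpace ℝ X '' C)) : FPP C := by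
  intro K hKC hne hcl hco T hTm hT
  by_contra hcon
  push Not at hcon
  exact hX (onto_of_free (wcpt_mono hC hKC hcl hco) hne hco hTm hT hcon)

theorem fpp_of_no_l1 [CompleteSpace X] (hX : ¬ ContainsL1 (StrongDual ℝ X))
    {C : Set X} (hC : IsCompact (toWeakSpace ℝ X '' C)) : FPP C :=
  fun K hKC hne hcl hco T hTm hT =>
    fixed_of_no_l1 hX (wcpt_mono hC hKC hcl hco) hne hco hTm hT

theorem fpp_of_separable_quotient [CompleteSpace X] (hX : SeparableBidualQuotient X)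
    {C : Set X} (hC : IsCompact (toWeakSpace ℝ X '' C)) : FPP C :=
  fun K hKC hne hcl hco T hTm hT =>
    fixed_of_separable_quotient hX (wcpt_mono hC hKC hcl hco) hne hco hTm hT

/-- Reflexive spaces: the old theorem for maps of the subtype. -/
theorem reflexive_fixed [CompleteSpace X]
    (hX : Function.Surjective (NormedSpace.inclusionInDoubleDual ℝ X))
    (C : Set X) (hne : C.Nonempty) (hcl : IsClosed C) (hb : Bornology.IsBounded C)
    (hco : Convex ℝ C) (T : C → C)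
    (hT : ∀ a b : C, ‖(T a : X) - (T b : X)‖ ≤ ‖(a : X) - (b : X)‖) : ∃ a : C, T a = a := by
  classical
  have h := exists_fixed_point (X := X) hX hne hcl hb hco
    (T := fun x => if h : x ∈ C then (T ⟨x, h⟩ : X) else x)
    (by
      intro x hx
      simp only [dif_pos hx]
      exact (T ⟨x, hx⟩).2)
    (by
      intro x hx y hy
      simp only [dif_pos hx, dif_pos hy]
      exact hT ⟨x, hx⟩ ⟨y, hy⟩)
  obtain ⟨x, hx, hfix⟩ := h
  simp only [dif_pos hx] at hfix
  exact ⟨⟨x, hx⟩, Subtype.ext hfix⟩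

end Vale.Agent.P079.H709
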