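import Vale.Agent.P079.H709.Dich
import Mathlib.Topology.ContinuousMap.ZeroAtInfty

set_option linter.all false

open Filter Topology Set Pointwise ZeroAtInfty

namespace Vale.Agent.P079.H709

section Surj

variable {Y Z : Type*} [NormedAddCommGroup Y] [NormedSpace ℝ Y] [CompleteSpace Y]
  [NormedAddCommGroup Z] [NormedSpace ℝ Z]

/-- Approximate preimages give exact preimages. -/
theorem exists_preimage_of_approx (S : Y →L[ℝ] Z) {κ τ : ℝ} (hκ : 0 ≤ κ) (hτ0 : 0 ≤ τ)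
    (hτ1 : τ < 1) (h : ∀ a : Z, ∃ y : Y, ‖y‖ ≤ κ * ‖a‖ ∧ ‖a - S y‖ ≤ τ * ‖a‖) (a : Z) :
    ∃ y : Y, S y = a ∧ ‖y‖ ≤ κ * (1 - τ)⁻¹ * ‖a‖ := by
  choose g hg1 hg2 using h
  let A : ℕ → Z := fun k => (fun b => b - S (g b))^[k] a
  have hA0 : A 0 = a := rfl
  have hAs : ∀ k, A (k + 1) = A k - S (g (A k)) := fun k => by
    show (fun b => b - S (g b))^[k + 1] a = _
    rw [Function.iterate_succ_apply']
  have hAn : ∀ k, ‖A k‖ ≤ τ ^ k * ‖a‖ := by
    intro k
    induction k with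
    | zero => rw [hA0, pow_zero, one_mul]
    | succ k ih =>
      rw [hAs, pow_succ]
      calc ‖A k - S (g (A k))‖ ≤ τ * ‖A k‖ := hg2 _
        _ ≤ τ * (τ ^ k * ‖a‖) := mul_le_mul_of_nonneg_left ih hτ0
        _ = τ ^ k * τ * ‖a‖ := by ring
  have hgn : ∀ k, ‖g (A k)‖ ≤ (κ * ‖a‖) * τ ^ k := by
    intro k
    calc ‖g (A k)‖ ≤ κ * ‖A k‖ := hg1 _
      _ ≤ κ * (τ ^ k * ‖a‖) := mul_le_mul_of_nonneg_left (hAn k) hκ
      _ = (κ * ‖a‖) * τ ^ k := by ring
  have hgeo : HasSum (fun k => (κ * ‖a‖) * τ ^ k) ((κ * ‖a‖) * (1 - τ)⁻¹) :=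
    (hasSum_geometric_of_lt_one hτ0 hτ1).mul_left _
  have hsum : Summable fun k => g (A k) := Summable.of_norm_bounded hgeo.summable hgn
  refine ⟨∑' k, g (A k), ?_, ?_⟩
  · have h1 : Tendsto (fun n => ∑ k ∈ Finset.range n, S (g (A k))) atTop
        (𝓝 (S (∑' k, g (A k)))) := by
      have h2 := (S.continuous.tendsto _).comp hsum.hasSum.tendsto_sum_nat
      refine h2.congr fun n => ?_
      simp only [Function.comp_apply, map_sum]
    have h3 : ∀ n, ∑ k ∈ Finset.range n, S (g (A k)) = a - A n := by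
      intro n
      induction n with
      | zero => simp [hA0]
      | succ n ih =>
        rw [Finset.sum_range_succ, ih, hAs]
        abel
    have h4 : Tendsto A atTop (𝓝 0) := by
      have h5 : Tendsto (fun k => τ ^ k * ‖a‖) atTop (𝓝 0) := by
        simpa using (tendsto_pow_atTop_nhds_zero_of_lt_one hτ0 hτ1).mul_const ‖a‖
      exact squeeze_zero_norm hAn h5
    have h6 : Tendsto (fun n => a - A n) atTop (𝓝 (a - 0)) := tendsto_const_nhds.sub h4
    rw [sub_zero] at h6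
    simp only [h3] at h1
    exact tendsto_nhds_unique h1 h6
  · have h1 := tsum_of_norm_bounded hgeo hgn
    calc ‖∑' k, g (A k)‖ ≤ (κ * ‖a‖) * (1 - τ)⁻¹ := h1
      _ = κ * (1 - τ)⁻¹ * ‖a‖ := by ring

end Surj

section C0

/-- Sequences tending to zero as elements of `c_0`. -/
noncomputable def mk0 (x : ℕ → ℝ) (hx : Tendsto x atTop (𝓝 0)) : C₀(ℕ, ℝ) where
  toFun := x
  continuous_toFun := continuous_of_discreteTopology
  zero_at_infty' := by
    rw [Filter.cocompact_eq_cofinite, Nat.cofinite_eq_atTop]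
    exact hx

theorem mk0_apply (x : ℕ → ℝ) (hx : Tendsto x atTop (𝓝 0)) (i : ℕ) : mk0 x hx i = x i := rfl

theorem tendsto_c0 (x : C₀(ℕ, ℝ)) : Tendsto (fun i => x i) atTop (𝓝 0) := by
  have h := x.zero_at_infty'
  rw [Filter.cocompact_eq_cofinite, Nat.cofinite_eq_atTop] at h
  exact h

theorem norm_c0_le {x : C₀(ℕ, ℝ)} {B : ℝ} (hB : 0 ≤ B) (h : ∀ i, |x i| ≤ B) : ‖x‖ ≤ B := by
  rw [← ZeroAtInftyContinuousMap.norm_toBCF_eq_norm]
  exact (BoundedContinuousFunction.norm_le hB).2 h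

theorem abs_le_norm_c0 (x : C₀(ℕ, ℝ)) (i : ℕ) : |x i| ≤ ‖x‖ := by
  rw [← ZeroAtInftyContinuousMap.norm_toBCF_eq_norm]
  exact x.toBCF.norm_coe_le_norm i

/-- Unit vectors of `c_0`. -/
noncomputable def e0 (i : ℕ) : C₀(ℕ, ℝ) :=
  mk0 (fun n => if n = i then 1 else 0) (by
    refine tendsto_const_nhds.congr' ?_
    filter_upwards [eventually_gt_atTop i] with n hn
    rw [if_neg (by omega)])

theorem e0_apply (i n : ℕ) : e0 i n = if n = i then 1 else 0 := rfl

theorem sum_e0_apply (c : ℕ → ℝ) (N n : ℕ) :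
    (∑ i ∈ Finset.range N, c i • e0 i) n = if n < N then c n else 0 := by
  induction N with
  | zero => simp
  | succ N ih =>
    rw [Finset.sum_range_succ, ZeroAtInftyContinuousMap.add_apply, ih,
      ZeroAtInftyContinuousMap.smul_apply, e0_apply, smul_eq_mul]
    by_cases h1 : n < N
    · rw [if_pos h1, if_neg (by omega), if_pos (by omega)]
      ring
    · by_cases h2 : n = N
      · subst h2
        simp
      · rw [if_neg h1, if_neg h2, if_neg (by omega)]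
        ring

theorem tendsto_partial (x : C₀(ℕ, ℝ)) :
    Tendsto (fun N => ∑ i ∈ Finset.range N, x i • e0 i) atTop (𝓝 x) := by
  rw [tendsto_iff_norm_sub_tendsto_zero]
  rw [Metric.tendsto_atTop]
  intro δ hδ
  obtain ⟨N, hN⟩ := Metric.tendsto_atTop.1 (tendsto_c0 x) (δ / 2) (by linarith)
  refine ⟨N, fun n hn => ?_⟩
  rw [dist_zero_right, norm_norm]
  refine lt_of_le_of_lt (norm_c0_le (B := δ / 2) (by linarith) fun i => ?_) (by linarith)
  rw [ZeroAtInftyContinuousMap.sub_apply, sum_e0_apply]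
  by_cases h : i < n
  · rw [if_pos h, sub_self, abs_zero]
    linarith
  · rw [if_neg h, zero_sub, abs_neg]
    have h1 := hN i (by omega)
    rw [dist_zero_right, Real.norm_eq_abs] at h1
    exact h1.le

theorem tendsto_dual (f : StrongDual ℝ C₀(ℕ, ℝ)) (x : C₀(ℕ, ℝ)) :
    Tendsto (fun N => ∑ i ∈ Finset.range N, x i * f (e0 i)) atTop (𝓝 (f x)) := by
  refine ((f.continuous.tendsto _).comp (tendsto_partial x)).congr fun N => ?_
  simp only [Function.comp_apply, map_sum, map_smul, smul_eq_mul]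

theorem sum_abs_le (f : StrongDual ℝ C₀(ℕ, ℝ)) (N : ℕ) :
    ∑ i ∈ Finset.range N, |f (e0 i)| ≤ ‖f‖ := by
  let c : ℕ → ℝ := fun i => if 0 ≤ f (e0 i) then 1 else -1
  have hc : ∀ i, |c i| ≤ 1 := by
    intro i
    simp only [c]
    split_ifs <;> simp
  have h1 : ‖∑ i ∈ Finset.range N, c i • e0 i‖ ≤ 1 := by
    refine norm_c0_le zero_le_one fun n => ?_
    rw [sum_e0_apply]
    split_ifs
    · exact hc n
    · simp
  have h2 : f (∑ i ∈ Finset.range N, c i • e0 i) = ∑ i ∈ Finset.range N, |f (e0 i)| := by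
    rw [map_sum]
    refine Finset.sum_congr rfl fun i _ => ?_
    rw [map_smul, smul_eq_mul]
    simp only [c]
    split_ifs with h
    · rw [abs_of_nonneg h, one_mul]
    · rw [abs_of_neg (not_le.1 h)]
      ring
  rw [← h2]
  calc f (∑ i ∈ Finset.range N, c i • e0 i) ≤ ‖f (∑ i ∈ Finset.range N, c i • e0 i)‖ :=
        le_abs_self _
    _ ≤ ‖f‖ * ‖∑ i ∈ Finset.range N, c i • e0 i‖ := f.le_opNorm _
    _ ≤ ‖f‖ * 1 := mul_le_mul_of_nonneg_left h1 (ContinuousLinearMap.opNorm_nonneg f)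
    _ = ‖f‖ := mul_one _

end C0

section Quot

variable {X : Type*} [NormedAddCommGroup X] [NormedSpace ℝ X]

/-- The operator into `c_0` given by a null sequence of functionals. -/
noncomputable def toC0 (ψ : ℕ → StrongDual ℝ X) (hψ : ∀ i, ‖ψ i‖ ≤ 1) (Y : Submodule ℝ X)
    (hY : ∀ y ∈ Y, Tendsto (fun i => ψ i y) atTop (𝓝 0)) : Y →L[ℝ] C₀(ℕ, ℝ) :=
  LinearMap.mkContinuous
    { toFun := fun y => mk0 (fun i => ψ i y) (hY y y.2)
      map_add' := fun x y => by
        ext i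
        show ψ i ((x + y : Y) : X) = ψ i x + ψ i y
        rw [Submodule.coe_add, map_add]
      map_smul' := fun c x => by
        ext i
        show ψ i ((c • x : Y) : X) = c * ψ i x
        rw [Submodule.coe_smul, map_smul, smul_eq_mul] } 1 (by
    intro y
    rw [one_mul]
    refine norm_c0_le (norm_nonneg _) fun i => ?_
    show |ψ i (y : X)| ≤ ‖y‖
    calc |ψ i (y : X)| = ‖ψ i (y : X)‖ := rfl
      _ ≤ ‖ψ i‖ * ‖(y : X)‖ := (ψ i).le_opNorm _
      _ ≤ 1 * ‖(y : X)‖ := mul_le_mul_of_nonneg_right (hψ i) (norm_nonneg _)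
      _ = ‖y‖ := by rw [one_mul]; rfl)

theorem toC0_apply (ψ : ℕ → StrongDual ℝ X) (hψ : ∀ i, ‖ψ i‖ ≤ 1) (Y : Submodule ℝ X)
    (hY : ∀ y ∈ Y, Tendsto (fun i => ψ i y) atTop (𝓝 0)) (y : Y) (i : ℕ) :
    toC0 ψ hψ Y hY y i = ψ i y := rfl

theorem toC0_norm (ψ : ℕ → StrongDual ℝ X) (hψ : ∀ i, ‖ψ i‖ ≤ 1) (Y : Submodule ℝ X)
    (hY : ∀ y ∈ Y, Tendsto (fun i => ψ i y) atTop (𝓝 0)) : ‖toC0 ψ hψ Y hY‖ ≤ 1 :=
  LinearMap.mkContinuous_norm_le _ zero_le_one _

/-- Density of the image of the unit ball. -/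
theorem approx_ball (ψ : ℕ → StrongDual ℝ X) (hψ : ∀ i, ‖ψ i‖ ≤ 1) (Y : Submodule ℝ X)
    (hY : ∀ y ∈ Y, Tendsto (fun i => ψ i y) atTop (𝓝 0)) {ε : ℝ} (hε1 : ε < 1)
    (hpat : ∀ (θ : ℕ → Bool) (N : ℕ), ∃ g : X, ‖g‖ ≤ 1 ∧ g ∈ Y ∧
      ∀ i ≤ N, 1 - ε < (if θ i = true then (1 : ℝ) else -1) * ψ i g)
    (a : C₀(ℕ, ℝ)) (ha : ‖a‖ ≤ 1 - ε) {δ : ℝ} (hδ : 0 < δ) :
    ∃ y : Y, ‖y‖ ≤ 1 ∧ ‖a - toC0 ψ hψ Y hY y‖ ≤ δ := by
  classical
  set S := toC0 ψ hψ Y hY with hS
  have hmem : a ∈ closure (S '' Metric.closedBall 0 1) := by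
    by_contra hcon
    have hconv : Convex ℝ (S '' Metric.closedBall 0 1) :=
      (convex_closedBall (0 : Y) 1).linear_image (S : Y →ₗ[ℝ] C₀(ℕ, ℝ))
    obtain ⟨f, u, hfu, hua⟩ :=
      geometric_hahn_banach_closed_point hconv.closure isClosed_closure hcon
    set b : ℕ → ℝ := fun i => f (e0 i) with hb
    have hsum : Summable fun i => |b i| :=
      summable_of_sum_range_le (fun i => abs_nonneg _) (sum_abs_le f)
    set B : ℝ := ∑' i, |b i| with hB
    have hB0 : 0 ≤ B := tsum_nonneg fun i => abs_nonneg _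
    have hle : ∀ N, ∑ i ∈ Finset.range N, |b i| ≤ B := fun N =>
      hsum.sum_le_tsum _ fun i _ => abs_nonneg _
    have hfa : f a ≤ (1 - ε) * B := by
      refine le_of_tendsto (tendsto_dual f a) (Eventually.of_forall fun N => ?_)
      calc ∑ i ∈ Finset.range N, a i * f (e0 i)
          ≤ ∑ i ∈ Finset.range N, (1 - ε) * |b i| := by
            refine Finset.sum_le_sum fun i _ => ?_
            calc a i * f (e0 i) ≤ |a i * f (e0 i)| := le_abs_self _
              _ = |a i| * |b i| := abs_mul _ _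
              _ ≤ (1 - ε) * |b i| :=
                mul_le_mul_of_nonneg_right ((abs_le_norm_c0 a i).trans ha) (abs_nonneg _)
        _ = (1 - ε) * ∑ i ∈ Finset.range N, |b i| := by rw [Finset.mul_sum]
        _ ≤ (1 - ε) * B := mul_le_mul_of_nonneg_left (hle N) (by linarith)
    have hlow : ∀ N, (1 - ε) * (∑ i ∈ Finset.range (N + 1), |b i|) -
        (B - ∑ i ∈ Finset.range (N + 1), |b i|) ≤ u := by
      intro N
      obtain ⟨g, hg1, hgY, hg⟩ := hpat (fun i => decide (0 ≤ b i)) N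
      have h1 : f (S ⟨g, hgY⟩) < u := hfu _ (subset_closure ⟨⟨g, hgY⟩, by
        rw [mem_closedBall_zero_iff]
        exact hg1, rfl⟩)
      refine le_trans ?_ h1.le
      refine ge_of_tendsto (tendsto_dual f (S ⟨g, hgY⟩)) ?_
      filter_upwards [eventually_ge_atTop (N + 1)] with M hM
      have h2 : ∀ i ≤ N, (1 - ε) * |b i| ≤ ψ i g * b i := by
        intro i hi
        have h3 := (hg i hi).le
        by_cases h4 : 0 ≤ b i
        · simp only [h4, decide_true, if_true, one_mul] at h3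
          rw [abs_of_nonneg h4]
          exact mul_le_mul_of_nonneg_right h3 h4
        · simp only [h4, decide_false, if_false, Bool.false_eq_true] at h3
          rw [not_le] at h4
          rw [abs_of_neg h4]
          nlinarith
      have h3 : ∀ i, -|b i| ≤ ψ i g * b i := by
        intro i
        have h4 : |ψ i g * b i| ≤ |b i| := by
          rw [abs_mul]
          have h5 : |ψ i g| ≤ 1 := by
            calc |ψ i g| = ‖ψ i g‖ := rfl
              _ ≤ ‖ψ i‖ * ‖g‖ := (ψ i).le_opNorm _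
              _ ≤ 1 * 1 := mul_le_mul (hψ i) hg1 (norm_nonneg _) zero_le_one
              _ = 1 := one_mul _
          calc |ψ i g| * |b i| ≤ 1 * |b i| := mul_le_mul_of_nonneg_right h5 (abs_nonneg _)
            _ = |b i| := one_mul _
        exact (abs_le.1 h4).1
      have h4 : ∑ i ∈ Finset.range M, (S ⟨g, hgY⟩) i * f (e0 i) =
          ∑ i ∈ Finset.range (N + 1), ψ i g * b i + ∑ i ∈ Finset.Ico (N + 1) M, ψ i g * b i := by
        rw [Finset.sum_range_add_sum_Ico _ hM]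
        rfl
      have h5 : (1 - ε) * (∑ i ∈ Finset.range (N + 1), |b i|) ≤
          ∑ i ∈ Finset.range (N + 1), ψ i g * b i := by
        rw [Finset.mul_sum]
        exact Finset.sum_le_sum fun i hi => h2 i (by have := Finset.mem_range.1 hi; omega)
      have h6 : -(∑ i ∈ Finset.Ico (N + 1) M, |b i|) ≤ ∑ i ∈ Finset.Ico (N + 1) M, ψ i g * b i := by
        rw [← Finset.sum_neg_distrib]
        exact Finset.sum_le_sum fun i _ => h3 i
      have h7 : ∑ i ∈ Finset.range (N + 1), |b i| + ∑ i ∈ Finset.Ico (N + 1) M, |b i| ≤ B := by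
        rw [Finset.sum_range_add_sum_Ico _ hM]
        exact hle M
      rw [h4]
      linarith
    have hlim : Tendsto (fun N => (1 - ε) * (∑ i ∈ Finset.range (N + 1), |b i|) -
        (B - ∑ i ∈ Finset.range (N + 1), |b i|)) atTop (𝓝 ((1 - ε) * B - (B - B))) := by
      have h1 : Tendsto (fun N => ∑ i ∈ Finset.range (N + 1), |b i|) atTop (𝓝 B) :=
        hsum.hasSum.tendsto_sum_nat.comp (tendsto_add_atTop_nat 1)
      exact (h1.const_mul _).sub (h1.const_sub _)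
    have h2 := le_of_tendsto hlim (Eventually.of_forall hlow)
    linarith
  obtain ⟨_, ⟨y, hy, rfl⟩, hya⟩ := Metric.mem_closure_iff.1 hmem δ hδ
  rw [mem_closedBall_zero_iff] at hy
  refine ⟨y, hy, ?_⟩
  rw [dist_eq_norm] at hya
  exact hya.le

/-- The operator is an almost isometric quotient map onto `c_0`. -/
theorem onto_c0 [CompleteSpace X] (ψ : ℕ → StrongDual ℝ X) (hψ : ∀ i, ‖ψ i‖ ≤ 1)
    (Y : Submodule ℝ X) (hYcl : IsClosed (Y : Set X))
    (hY : ∀ y ∈ Y, Tendsto (fun i => ψ i y) atTop (𝓝 0)) {η : ℝ} (hη : 0 < η)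
    (hpat : ∀ (θ : ℕ → Bool) (N : ℕ), ∃ g : X, ‖g‖ ≤ 1 ∧ g ∈ Y ∧
      ∀ i ≤ N, 1 - η / (2 * (1 + η)) < (if θ i = true then (1 : ℝ) else -1) * ψ i g)
    (a : C₀(ℕ, ℝ)) : ∃ y : Y, toC0 ψ hψ Y hY y = a ∧ ‖y‖ ≤ (1 + η) * ‖a‖ := by
  haveI : CompleteSpace Y := hYcl.completeSpace_coe
  set ε : ℝ := η / (2 * (1 + η)) with hε
  have hε0 : 0 < ε := by positivity
  have hε1 : ε < 1 := by
    rw [hε, div_lt_one (by positivity)]
    linarith
  have hε2 : 0 < 1 - ε := by linarith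
  have happ : ∀ a : C₀(ℕ, ℝ), ∃ y : Y, ‖y‖ ≤ (1 - ε)⁻¹ * ‖a‖ ∧
      ‖a - toC0 ψ hψ Y hY y‖ ≤ ε * ‖a‖ := by
    intro a
    rcases eq_or_ne a 0 with rfl | ha
    · exact ⟨0, by simp, by simp⟩
    have hna : 0 < ‖a‖ := norm_pos_iff.2 ha
    set t : ℝ := (1 - ε) / ‖a‖ with ht
    have ht0 : 0 < t := div_pos hε2 hna
    obtain ⟨y, hy1, hy2⟩ := approx_ball ψ hψ Y hY hε1 hpat (t • a) (by
      rw [norm_smul, Real.norm_of_nonneg ht0.le, ht, div_mul_cancel₀ _ hna.ne'])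
      (δ := ε * (1 - ε)) (mul_pos hε0 hε2)
    refine ⟨t⁻¹ • y, ?_, ?_⟩
    · rw [norm_smul, norm_inv, Real.norm_of_nonneg ht0.le]
      have h1 : t⁻¹ = (1 - ε)⁻¹ * ‖a‖ := by
        rw [ht, inv_div, div_eq_inv_mul]
      rw [h1]
      have h2 : 0 ≤ (1 - ε)⁻¹ * ‖a‖ := by positivity
      nlinarith
    · have h1 : a - toC0 ψ hψ Y hY (t⁻¹ • y) = t⁻¹ • (t • a - toC0 ψ hψ Y hY y) := by
        rw [map_smul]
        ext i
        simp only [ZeroAtInftyContinuousMap.sub_apply, ZeroAtInftyContinuousMap.smul_apply,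
          smul_eq_mul]
        rw [mul_sub, ← mul_assoc, inv_mul_cancel₀ ht0.ne', one_mul]
      rw [h1, norm_smul, norm_inv, Real.norm_of_nonneg ht0.le]
      have h3 : t⁻¹ * (ε * (1 - ε)) = ε * ‖a‖ := by
        rw [ht, inv_div]
        field_simp
      rw [← h3]
      exact mul_le_mul_of_nonneg_left hy2 (inv_nonneg.2 ht0.le)
  obtain ⟨y, hy1, hy2⟩ := exists_preimage_of_approx (toC0 ψ hψ Y hY) (inv_nonneg.2 hε2.le)
    hε0.le hε1 happ a
  refine ⟨y, hy1, hy2.trans ?_⟩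
  refine mul_le_mul_of_nonneg_right ?_ (norm_nonneg _)
  rw [← mul_inv]
  have h4 : 1 / (1 + η) ≤ (1 - ε) * (1 - ε) := by
    have h5 : 1 - ε = (2 + η) / (2 * (1 + η)) := by
      rw [hε]
      field_simp
      ring
    rw [h5, div_mul_div_comm, div_le_div_iff₀ (by positivity) (by positivity)]
    nlinarith [sq_nonneg η]
  have h6 : 0 < (1 - ε) * (1 - ε) := mul_pos hε2 hε2
  rw [inv_le_comm₀ h6 (by positivity), ← one_div]
  exact h4

end Quot

end Vale.Agent.P079.H709
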