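import Vale.Agent.P079.H709.Cor

set_option linter.all false

open Filter Topology Set Pointwise ZeroAtInfty

namespace Vale.Agent.P079.H709

variable {X : Type*} [NormedAddCommGroup X] [NormedSpace ℝ X]

/-- Weak star limits of bounded sequences of functionals along ultrafilters. -/
theorem exists_dual_limit {ι : Type*} (U : Ultrafilter ι) (ψ : ι → StrongDual ℝ X)
    (hψ : ∀ i, ‖ψ i‖ ≤ 1) :
    ∃ f : StrongDual ℝ X, ‖f‖ ≤ 1 ∧ ∀ x : X, Tendsto (fun i => ψ i x) U (𝓝 (f x)) := by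
  have hlim : ∀ x : X, ∃ a : ℝ, Tendsto (fun i => ψ i x) U (𝓝 a) := by
    intro x
    have hcomp : IsCompact (Metric.closedBall (0 : ℝ) (‖x‖)) := isCompact_closedBall _ _
    have hmem : ∀ i, ψ i x ∈ Metric.closedBall (0 : ℝ) (‖x‖) := by
      intro i
      rw [mem_closedBall_zero_iff]
      calc ‖ψ i x‖ ≤ ‖ψ i‖ * ‖x‖ := (ψ i).le_opNorm _
        _ ≤ 1 * ‖x‖ := mul_le_mul_of_nonneg_right (hψ i) (norm_nonneg _)
        _ = ‖x‖ := one_mul _
    obtain ⟨a, _, ha⟩ := hcomp.ultrafilter_le_nhds (U.map (fun i => ψ i x)) (by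
      rw [le_principal_iff, Ultrafilter.coe_map, Filter.mem_map]
      exact Filter.Eventually.of_forall hmem)
    exact ⟨a, ha⟩
  choose Λ hΛ using hlim
  have hadd : ∀ x y : X, Λ (x + y) = Λ x + Λ y := by
    intro x y
    refine tendsto_nhds_unique (hΛ (x + y)) ?_
    simpa only [map_add] using (hΛ x).add (hΛ y)
  have hsmul : ∀ (c : ℝ) (x : X), Λ (c • x) = c * Λ x := by
    intro c x
    refine tendsto_nhds_unique (hΛ (c • x)) ?_
    simpa only [map_smul, smul_eq_mul] using (hΛ x).const_mul c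
  have hbd : ∀ x : X, ‖Λ x‖ ≤ 1 * ‖x‖ := by
    intro x
    refine le_of_tendsto (hΛ x).norm (Filter.Eventually.of_forall fun i => ?_)
    exact ((ψ i).le_opNorm _).trans (mul_le_mul_of_nonneg_right (hψ i) (norm_nonneg _))
  let L : X →ₗ[ℝ] ℝ :=
    { toFun := Λ
      map_add' := hadd
      map_smul' := fun c f => by rw [hsmul, RingHom.id_apply, smul_eq_mul] }
  exact ⟨L.mkContinuous 1 hbd, LinearMap.mkContinuous_norm_le _ zero_le_one _, hΛ⟩

/-- Sobczyk's extension theorem for null sequences of functionals (Veech's proof). -/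
theorem extend_null [TopologicalSpace.SeparableSpace X] (Y : Submodule ℝ X)
    (ψ : ℕ → StrongDual ℝ X) (hψ : ∀ i, ‖ψ i‖ ≤ 1)
    (hY : ∀ y ∈ Y, Tendsto (fun i => ψ i y) atTop (𝓝 0)) :
    ∃ φ : ℕ → StrongDual ℝ X, (∀ i, ‖φ i‖ ≤ 2) ∧ (∀ i, ∀ y ∈ Y, φ i y = ψ i y) ∧
      ∀ x, Tendsto (fun i => φ i x) atTop (𝓝 0) := by
  classical
  let z : ℕ → X := TopologicalSpace.denseSeq X
  have hz : DenseRange z := TopologicalSpace.denseRange_denseSeq X
  let Q : ℕ → ℕ → Prop := fun n i => ∃ f : StrongDual ℝ X, ‖f‖ ≤ 1 ∧ (∀ y ∈ Y, f y = 0) ∧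
    ∀ k ∈ Finset.range (n + 1), |ψ i (z k) - f (z k)| < 1 / ((n : ℝ) + 1)
  have hQ : ∀ n, ∀ᶠ i in atTop, Q n i := by
    intro n
    by_contra hcon
    have hfr : ∃ᶠ i in atTop, ¬ Q n i := Filter.not_eventually.1 hcon
    have hne : (atTop ⊓ 𝓟 {i | ¬ Q n i} : Filter ℕ).NeBot := Filter.inf_principal_neBot_iff.2 (by
      intro s hs
      obtain ⟨i, hi1, hi2⟩ := (hfr.and_eventually hs).exists
      exact ⟨i, hi2, hi1⟩)
    let U : Ultrafilter ℕ := Ultrafilter.of (atTop ⊓ 𝓟 {i | ¬ Q n i})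
    have hU : (U : Filter ℕ) ≤ atTop ⊓ 𝓟 {i | ¬ Q n i} := Ultrafilter.of_le _
    obtain ⟨f, hf1, hf⟩ := exists_dual_limit U ψ hψ
    have hfY : ∀ y ∈ Y, f y = 0 := fun y hy =>
      tendsto_nhds_unique (hf y) ((hY y hy).mono_left (hU.trans inf_le_left))
    have h1 : ∀ᶠ i in (U : Filter ℕ), ∀ k ∈ Finset.range (n + 1),
        |ψ i (z k) - f (z k)| < 1 / ((n : ℝ) + 1) := by
      rw [Filter.eventually_all_finset]
      intro k _
      have h3 := Metric.tendsto_nhds.1 (hf (z k)) (1 / ((n : ℝ) + 1)) (by positivity)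
      filter_upwards [h3] with m hm
      rwa [Real.dist_eq] at hm
    have h2 : ∀ᶠ i in (U : Filter ℕ), ¬ Q n i :=
      (hU.trans inf_le_right) (mem_principal_self _)
    obtain ⟨i, hi1, hi2⟩ := (h1.and h2).exists
    exact hi2 ⟨f, hf1, hfY, hi1⟩
  have hQ' : ∀ n, ∃ M, ∀ i ≥ M, Q n i := fun n => eventually_atTop.1 (hQ n)
  choose M hM using hQ'
  let n : ℕ → ℕ := fun i => Nat.findGreatest (fun n => M n ≤ i) i
  have hn1 : ∀ m, ∀ i, max m (M m) ≤ i → m ≤ n i := by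
    intro m i hi
    exact Nat.le_findGreatest ((le_max_left _ _).trans hi) ((le_max_right _ _).trans hi)
  have hn2 : ∀ i, M 0 ≤ i → Q (n i) i := by
    intro i hi
    exact hM _ _ (Nat.findGreatest_spec (P := fun n => M n ≤ i) (Nat.zero_le i) hi)
  have hf : ∀ i, ∃ f : StrongDual ℝ X, ‖f‖ ≤ 1 ∧ (∀ y ∈ Y, f y = 0) ∧ (M 0 ≤ i →
      ∀ k ∈ Finset.range (n i + 1), |ψ i (z k) - f (z k)| < 1 / ((n i : ℝ) + 1)) := by
    intro i
    by_cases hi : M 0 ≤ i
    · obtain ⟨f, h1, h2, h3⟩ := hn2 i hi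
      exact ⟨f, h1, h2, fun _ => h3⟩
    · exact ⟨0, by simp, fun y _ => by simp, fun h => absurd h hi⟩
  choose f hf1 hf2 hf3 using hf
  have hφ2 : ∀ i, ‖ψ i - f i‖ ≤ 2 := by
    intro i
    calc ‖ψ i - f i‖ ≤ ‖ψ i‖ + ‖f i‖ := norm_sub_le _ _
      _ ≤ 1 + 1 := add_le_add (hψ i) (hf1 i)
      _ = 2 := by norm_num
  refine ⟨fun i => ψ i - f i, hφ2, fun i y hy => ?_, ?_⟩
  · rw [sub_apply, hf2 i y hy, sub_zero]
  · have hzk : ∀ k, Tendsto (fun i => (ψ i - f i) (z k)) atTop (𝓝 0) := by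
      intro k
      rw [Metric.tendsto_atTop]
      intro δ hδ
      obtain ⟨m, hm⟩ := exists_nat_one_div_lt hδ
      refine ⟨max (M 0) (max (max m k) (M (max m k))), fun i hi => ?_⟩
      have h1 : max m k ≤ n i := hn1 _ _ ((le_max_right _ _).trans hi)
      have h2 := hf3 i ((le_max_left _ _).trans hi) k
        (Finset.mem_range.2 (by have := (le_max_right m k).trans h1; omega))
      rw [dist_zero_right, Real.norm_eq_abs, sub_apply]
      refine h2.trans (lt_of_le_of_lt ?_ hm)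
      have h3 : (m : ℝ) ≤ n i := by exact_mod_cast (le_max_left m k).trans h1
      exact one_div_le_one_div_of_le (by positivity) (by linarith)
    intro x
    rw [Metric.tendsto_atTop]
    intro δ hδ
    obtain ⟨_, ⟨k, rfl⟩, hk⟩ := Metric.mem_closure_iff.1 (hz x) (δ / 4) (by linarith)
    obtain ⟨N, hN⟩ := Metric.tendsto_atTop.1 (hzk k) (δ / 2) (by linarith)
    refine ⟨N, fun i hi => ?_⟩
    have h1 := hN i hi
    rw [dist_zero_right] at h1 ⊢
    rw [dist_eq_norm] at hk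
    calc ‖(ψ i - f i) x‖ = ‖(ψ i - f i) (x - z k) + (ψ i - f i) (z k)‖ := by
          rw [map_sub, sub_add_cancel]
      _ ≤ ‖(ψ i - f i) (x - z k)‖ + ‖(ψ i - f i) (z k)‖ := norm_add_le _ _
      _ ≤ ‖ψ i - f i‖ * ‖x - z k‖ + ‖(ψ i - f i) (z k)‖ :=
          add_le_add ((ψ i - f i).le_opNorm _) le_rfl
      _ ≤ 2 * ‖x - z k‖ + ‖(ψ i - f i) (z k)‖ :=
          add_le_add (mul_le_mul_of_nonneg_right (hφ2 i) (norm_nonneg _)) le_rfl
      _ < δ := by linarith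

/-- In a separable space a fixed point free map gives an operator onto `c_0`. -/
theorem onto_of_free [CompleteSpace X] [TopologicalSpace.SeparableSpace X] {C : Set X}
    (hC : IsCompact (toWeakSpace ℝ X '' C))
    (hne : C.Nonempty) (hco : Convex ℝ C) {T : X → X} (hTm : MapsTo T C C)
    (hT : ∀ x ∈ C, ∀ y ∈ C, ‖T x - T y‖ ≤ ‖x - y‖) (hcon : ∀ x ∈ C, T x ≠ x) :
    ∃ S : X →L[ℝ] C₀(ℕ, ℝ), Function.Surjective S := by
  have hε : (0 : ℝ) < 1 / (2 * (1 + 1)) := by norm_num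
  obtain ⟨K, hKC, hKne, hKsep, ψ, hψ, hnull, hpat⟩ := dichotomy hC hne hco hTm hT hcon hε
  set Y : Submodule ℝ X := (Submodule.span ℝ (K - K)).topologicalClosure with hYdef
  have hYcl : IsClosed (Y : Set X) := Submodule.isClosed_topologicalClosure _
  have hYn : ∀ y ∈ Y, Tendsto (fun i => ψ i y) atTop (𝓝 0) := tendsto_span ψ hψ hnull
  have honto := onto_c0 ψ hψ Y hYcl hYn (η := 1) one_pos (by
    intro θ N
    obtain ⟨g, hg1, hg2, hg3⟩ := hpat θ N
    exact ⟨g, hg1, Submodule.le_topologicalClosure _ hg2, hg3⟩)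
  obtain ⟨φ, hφ2, hφY, hφ⟩ := extend_null Y ψ hψ hYn
  have hφ' : ∀ i, ‖(1 / 2 : ℝ) • φ i‖ ≤ 1 := by
    intro i
    rw [norm_smul, Real.norm_of_nonneg (by norm_num)]
    have := hφ2 i
    linarith
  have hφ0 : ∀ y ∈ (⊤ : Submodule ℝ X), Tendsto (fun i => ((1 / 2 : ℝ) • φ i) y) atTop (𝓝 0) := by
    intro y _
    have h := (hφ y).const_mul (1 / 2 : ℝ)
    rw [mul_zero] at h
    exact h
  refine ⟨(toC0 (fun i => (1 / 2 : ℝ) • φ i) hφ' ⊤ hφ0).comp
    ((ContinuousLinearMap.id ℝ X).codRestrict ⊤ (fun x => trivial)), fun a => ?_⟩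
  obtain ⟨y, hy, -⟩ := honto ((2 : ℝ) • a)
  refine ⟨(y : X), ?_⟩
  ext i
  have h1 : toC0 ψ hψ Y hYn y i = ((2 : ℝ) • a) i := by rw [hy]
  rw [toC0_apply, ZeroAtInftyContinuousMap.smul_apply, smul_eq_mul] at h1
  show (1 / 2 : ℝ) * φ i y = a i
  rw [hφY i y y.2, h1]
  ring

end Vale.Agent.P079.H709
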