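import Vale.Agent.P079.Bdl.B1

set_option linter.all false

open Filter Topology Set

namespace Vale.Agent.P079.H709

variable {X : Type*} [NormedAddCommGroup X] [NormedSpace ℝ X]

/-- The step lemma, with a frequently occurring bound. -/
theorem step_freq {C : Set X} (hconv : Convex ℝ C)
    (hdiam : ∀ x ∈ C, ∀ y ∈ C, ‖x - y‖ ≤ 1)
    (u : ℕ → X) (hu : ∀ n, u n ∈ C) {R : X → X} (hR : MapsTo R C C)
    (hRl : ∀ x ∈ C, ∀ y ∈ C, ‖R x - R y‖ ≤ ‖x - y‖)
    (hRu : Tendsto (fun n => ‖R (u n) - u n‖) atTop (𝓝 0))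
    (φ : ℕ → StrongDual ℝ X) (hφ1 : ∀ n, ‖φ n‖ ≤ 1)
    (hφu : Tendsto (fun n => φ n (u n)) atTop (𝓝 1))
    (hφC : ∀ v ∈ C, Tendsto (fun n => φ n v) atTop (𝓝 0))
    (h0 : (0 : X) ∈ C)
    (hweak : ∀ f : StrongDual ℝ X, Tendsto (fun n => f (u n)) atTop (𝓝 0))
    (F : StrongDual ℝ X) (J : ℝ) (hJ : 0 ≤ J) (hF : ‖F‖ ≤ J) (n : ℕ) (c c' : ℝ)
    (hc : c + J * ‖R (u n) - u n‖ ≤ c')
    (hA : ∃ᶠ n' in atTop, ∀ W Ψ, Ctx C u W Ψ →
      (φ n' - F) (Ψ (u n')) - (φ n' - F) (Ψ (u n)) ≤ (J + 1 - c') * W)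
    {W : ℝ} {Ψ : X → X} (hΨ : Ctx C u W Ψ) :
    F (Ψ (u n)) - F (Ψ (R 0)) ≤ (J - c) * W := by
  classical
  have hFle : ∀ x : X, F x ≤ J * ‖x‖ := fun x =>
    (le_abs_self _).trans ((F.le_opNorm x).trans (mul_le_mul_of_nonneg_right hF (norm_nonneg _)))
  have hφle : ∀ m (x : X), φ m x ≤ ‖x‖ := fun m x =>
    (le_abs_self _).trans (((φ m).le_opNorm x).trans
      ((mul_le_mul_of_nonneg_right (hφ1 m) (norm_nonneg _)).trans_eq (one_mul _)))
  have hW0 := hΨ.W0
  have hW1 := hΨ.W1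
  -- the composite `Ψ ∘ R`
  have hΘ : Ctx C u W (fun x => Ψ (R x)) := hΨ.comp hu hR hRl hRu
  refine le_of_forall_pos_le_add fun ε hε => ?_
  obtain ⟨e, he0, heε⟩ : ∃ e : ℝ, 0 < e ∧ (4 + J) * e ≤ ε := by
    have h4J : 0 < 4 + J := by linarith only [hJ]
    exact ⟨ε / (4 + J), div_pos hε h4J, by rw [mul_div_cancel₀ _ h4J.ne']⟩
  set d : ℕ → ℝ := fun i => e * (1 / 2) ^ (i + 1) with hd
  have hdpos : ∀ i, 0 < d i := fun i => by (clear * - he0; positivity)
  have hdsum : ∀ i, ∑ l ∈ Finset.range i, d l ≤ e := by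
    intro i
    have h1 : ∑ l ∈ Finset.range i, d l = e * (1 - (1 / 2) ^ i) := by
      induction i with
      | zero => simp
      | succ i ih =>
        rw [Finset.sum_range_succ, ih]
        simp only [hd]
        ring
    rw [h1]
    have h2 : (0 : ℝ) ≤ (1 / 2) ^ i := by positivity
    nlinarith only [he0, h2]
  -- finite sets of earlier points
  set H : ℕ → Set X := fun L => insert (u n) (u '' {l | l ≤ L}) with hH
  have hHfin : ∀ L, (H L).Finite := fun L => ((finite_le_nat L).image u).insert _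
  have hHC : ∀ L, convexHull ℝ (H L) ⊆ C := by
    intro L
    refine convexHull_min ?_ hconv
    rintro y (rfl | ⟨l, _, rfl⟩)
    · exact hu n
    · exact hu l
  -- the properties required from the next index
  have hE : ∀ i L : ℕ, ∀ᶠ m in atTop, ‖R (u m) - u m‖ ≤ d i ∧ 1 - d i ≤ φ m (u m) ∧
      (∀ x ∈ C, ‖Ψ x - u m‖ ≤ 1 - W + W * ‖x - u m‖ + d i) ∧
      (∀ x ∈ convexHull ℝ (H L), φ m (Ψ (R x)) ≤ d i) := by
    intro i L
    have h1 : ∀ᶠ m in atTop, ‖R (u m) - u m‖ < d i := hRu.eventually (gt_mem_nhds (hdpos i))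
    have h2 : ∀ᶠ m in atTop, 1 - d i < φ m (u m) :=
      hφu.eventually (lt_mem_nhds (by linarith only [hdpos i]))
    have h3 := hΨ.far (d i) (hdpos i)
    have hΘl : ∀ x ∈ C, ∀ y ∈ C, ‖Ψ (R x) - Ψ (R y)‖ ≤ ‖x - y‖ := by
      intro x hx y hy
      refine (hΘ.lip x hx y hy).trans ?_
      have := norm_nonneg (x - y)
      nlinarith only [hW1, this]
    have h4 := unif_small φ hφ1 hφC hΘ.maps hΘl ((hHfin L).isCompact_convexHull ℝ) (hHC L) (hdpos i)
    filter_upwards [h1, h2, h3, h4] with m a1 a2 a3 a4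
    exact ⟨a1.le, a2.le, a3, a4⟩
  have hE2 : ∀ i L K : ℕ, ∃ m ≥ K, (‖R (u m) - u m‖ ≤ d i ∧ 1 - d i ≤ φ m (u m) ∧
      (∀ x ∈ C, ‖Ψ x - u m‖ ≤ 1 - W + W * ‖x - u m‖ + d i) ∧
      (∀ x ∈ convexHull ℝ (H L), φ m (Ψ (R x)) ≤ d i)) ∧ (∀ W Ψ, Ctx C u W Ψ →
      (φ m - F) (Ψ (u m)) - (φ m - F) (Ψ (u n)) ≤ (J + 1 - c') * W) := by
    intro i L K
    have h1 := (hA.and_eventually (hE i L))
    obtain ⟨m, hm, h2⟩ := Filter.frequently_atTop.1 h1 K
    exact ⟨m, hm, h2.2, h2.1⟩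
  choose g hgK hg using hE2
  obtain ⟨m, hm0, hms⟩ : ∃ m : ℕ → ℕ, m 0 = g 0 0 0 ∧
      ∀ i, m (i + 1) = g (i + 1) (m i) (m i + 1) :=
    ⟨fun i => Nat.rec (g 0 0 0) (fun i mi => g (i + 1) mi (mi + 1)) i, rfl, fun i => rfl⟩
  have hmono : StrictMono m := by
    refine strictMono_nat_of_lt_succ fun i => ?_
    rw [hms]
    exact lt_of_lt_of_le (Nat.lt_succ_self _) (hgK _ _ _)
  obtain ⟨L, hL0, hLs⟩ : ∃ L : ℕ → ℕ, L 0 = 0 ∧ ∀ i, L (i + 1) = m i :=
    ⟨fun i => Nat.casesOn i 0 (fun i => m i), rfl, fun i => rfl⟩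
  have hprop : ∀ i, (‖R (u (m i)) - u (m i)‖ ≤ d i ∧ 1 - d i ≤ φ (m i) (u (m i)) ∧
      (∀ x ∈ C, ‖Ψ x - u (m i)‖ ≤ 1 - W + W * ‖x - u (m i)‖ + d i) ∧
      (∀ x ∈ convexHull ℝ (H (L i)), φ (m i) (Ψ (R x)) ≤ d i)) ∧ (∀ W Ψ, Ctx C u W Ψ →
      (φ (m i) - F) (Ψ (u (m i))) - (φ (m i) - F) (Ψ (u n)) ≤ (J + 1 - c') * W) := by
    intro i
    cases i with
    | zero =>
      rw [hL0, hm0]
      exact hg 0 0 0
    | succ i =>
      rw [hLs, hms]
      exact hg (i + 1) (m i) (m i + 1)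
  -- Mazur
  obtain ⟨M, w, hw0, hw1, hwM⟩ := mazur_small (fun i => u (m i))
    (fun f => (hweak f).comp hmono.tendsto_atTop) he0
  -- the polygonal path
  set s : ℕ → ℝ := fun i => ∑ l ∈ Finset.range i, w l with hs
  have hs0 : ∀ i, 0 ≤ s i := fun i => Finset.sum_nonneg fun l _ => hw0 l
  have hss : ∀ i, s (i + 1) = s i + w i := fun i => Finset.sum_range_succ _ _
  have hs1 : ∀ i ≤ M, s i ≤ 1 := by
    intro i hi
    rw [← hw1]
    exact Finset.sum_le_sum_of_subset_of_nonneg (Finset.range_mono hi) fun l _ _ => hw0 l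
  set K : ℕ → X := fun i => ∑ l ∈ Finset.range i, w l • u (m l) + (1 - s i) • u n with hK
  have hKmem : ∀ D : Set X, Convex ℝ D → u n ∈ D → ∀ i ≤ M, (∀ l < i, u (m l) ∈ D) → K i ∈ D := by
    intro D hD hn i hi hl
    have h1 : Mass D (s i) (∑ l ∈ Finset.range i, w l • u (m l)) :=
      Mass.sum hD ⟨_, hn⟩ w hw0 (fun l => u (m l)) i hl
    have h2 : Mass D (1 - s i) ((1 - s i) • u n) := ⟨u n, hn, rfl⟩
    have h3 := Mass.add hD (hs0 i) (by linarith only [hs1 i hi]) h1 h2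
    obtain ⟨q, hq, hq'⟩ := h3
    have h4 : K i = q := by
      rw [hK]
      dsimp only
      rw [hq']
      rw [show s i + (1 - s i) = 1 by ring, one_smul]
    rw [h4]
    exact hq
  have hKC : ∀ i ≤ M, K i ∈ C := fun i hi => hKmem C hconv (hu n) i hi fun l _ => hu _
  have hKH : ∀ i ≤ M, K i ∈ convexHull ℝ (H (L i)) := by
    intro i hi
    refine hKmem _ (convex_convexHull ℝ _) (subset_convexHull ℝ _ (mem_insert _ _)) i hi ?_
    intro l hl
    refine subset_convexHull ℝ _ (mem_insert_of_mem _ ⟨m l, ?_, rfl⟩)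
    obtain ⟨i', rfl⟩ : ∃ i', i = i' + 1 := ⟨i - 1, by omega⟩
    rw [Set.mem_ofPred_eq, hLs]
    exact hmono.monotone (by omega)
  -- one step of the path
  have hstep : ∀ i, i + 1 ≤ M →
      F (Ψ (R (K i))) - F (Ψ (R (K (i + 1)))) ≤ (J - c') * (w i * W) + 4 * d i := by
    intro i hi
    obtain ⟨⟨p1, p2, p3, p4⟩, p5⟩ := hprop i
    have hwi1 : w i ≤ 1 := by
      have := hs1 (i + 1) hi
      rw [hss] at this
      linarith only [this, hs0 i]
    -- the base point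
    obtain ⟨b, hb, hbeq⟩ : Mass C (1 - w i)
        (∑ l ∈ Finset.range i, w l • u (m l) + (1 - s (i + 1)) • u n) := by
      have h1 : Mass C (s i) (∑ l ∈ Finset.range i, w l • u (m l)) :=
        Mass.sum hconv ⟨_, h0⟩ w hw0 (fun l => u (m l)) i fun l _ => hu _
      have h2 : Mass C (1 - s (i + 1)) ((1 - s (i + 1)) • u n) := ⟨u n, hu n, rfl⟩
      have h3 := Mass.add hconv (hs0 i) (by linarith only [hs1 (i + 1) hi]) h1 h2
      rw [hss, show s i + (1 - (s i + w i)) = 1 - w i by ring] at h3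
      rw [hss]
      exact h3
    have hKi : K i = (1 - w i) • b + w i • u n := by
      rw [← hbeq, hK]
      dsimp only
      rw [hss, add_assoc, ← add_smul]
      congr 2
      ring
    have hKi1 : K (i + 1) = (1 - w i) • b + w i • u (m i) := by
      rw [← hbeq, hK]
      dsimp only
      rw [Finset.sum_range_succ]
      abel
    have hctx : Ctx C u (w i * W) (fun x => Ψ (R ((1 - w i) • b + w i • x))) :=
      hΘ.aff hconv hdiam hu hb (hw0 i) hwi1
    have hA1 := p5 _ _ hctx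
    rw [← hKi, ← hKi1] at hA1
    simp only [sub_apply] at hA1
    -- lower bound for `φ (m i)` at the new point
    have hdist : ‖K (i + 1) - u (m i)‖ ≤ 1 - w i := by
      have h1 : K (i + 1) - u (m i) = (1 - w i) • (b - u (m i)) := by
        rw [hKi1, smul_sub, sub_smul, sub_smul, one_smul, one_smul]
        abel
      rw [h1, norm_smul, Real.norm_of_nonneg (by linarith only [hwi1])]
      have := hdiam b hb (u (m i)) (hu _)
      nlinarith only [hwi1, this]
    have hRK : ‖R (K (i + 1)) - u (m i)‖ ≤ 1 - w i + d i := by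
      calc ‖R (K (i + 1)) - u (m i)‖
          = ‖(R (K (i + 1)) - R (u (m i))) + (R (u (m i)) - u (m i))‖ := by congr 1; abel
        _ ≤ ‖R (K (i + 1)) - R (u (m i))‖ + ‖R (u (m i)) - u (m i)‖ := norm_add_le _ _
        _ ≤ (1 - w i) + d i :=
            add_le_add ((hRl _ (hKC _ hi) _ (hu _)).trans hdist) p1
    have hlow : W * w i - 3 * d i ≤ φ (m i) (Ψ (R (K (i + 1)))) := by
      have h1 := p3 (R (K (i + 1))) (hR (hKC _ hi))
      have h2 : φ (m i) (u (m i) - Ψ (R (K (i + 1)))) ≤ ‖Ψ (R (K (i + 1))) - u (m i)‖ := by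
        rw [← norm_neg (Ψ (R (K (i + 1))) - u (m i)), neg_sub]
        exact hφle _ _
      rw [map_sub] at h2
      have h3 : W * ‖R (K (i + 1)) - u (m i)‖ ≤ W * (1 - w i) + d i := by
        have h4 := mul_le_mul_of_nonneg_left hRK hW0
        have h5 := (hdpos i).le
        nlinarith only [h4, hW1, h5]
      have h6 : W * (1 - w i) = W - W * w i := by ring
      linarith only [p2, h1, h2, h3]
    have hup : φ (m i) (Ψ (R (K i))) ≤ d i := p4 _ (hKH i (by omega))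
    have h7 : (J + 1 - c') * (w i * W) = (J - c') * (w i * W) + W * w i := by ring
    linarith only [hA1, hlow, hup]
  have htele : ∀ i ≤ M, F (Ψ (R (K 0))) - F (Ψ (R (K i))) ≤
      (J - c') * (s i * W) + 4 * ∑ l ∈ Finset.range i, d l := by
    intro i
    induction i with
    | zero => intro _; simp [hs]
    | succ i ih =>
      intro hi
      have h1 := ih (by omega)
      have h2 := hstep i hi
      rw [Finset.sum_range_succ, hss]
      have h3 : (J - c') * ((s i + w i) * W) = (J - c') * (s i * W) + (J - c') * (w i * W) := by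
        ring
      linarith only [h1, h2]
  have hM := htele M le_rfl
  have hsM : s M = 1 := hw1
  have hK0 : K 0 = u n := by simp only [hK, hs, Finset.range_zero, Finset.sum_empty, sub_zero, one_smul, zero_add]
  have hKM : ‖K M‖ ≤ e := by
    have : K M = ∑ l ∈ Finset.range M, w l • u (m l) := by
      rw [hK]
      dsimp only
      rw [hsM, sub_self, zero_smul, add_zero]
    rw [this]
    exact hwM
  rw [hK0, hsM, one_mul] at hM
  -- endpoints
  have h1 : F (Ψ (u n)) - F (Ψ (R (u n))) ≤ J * (W * ‖R (u n) - u n‖) := by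
    rw [← map_sub]
    refine (hFle _).trans (mul_le_mul_of_nonneg_left ?_ hJ)
    rw [← norm_neg (R (u n) - u n), neg_sub]
    exact hΨ.lip _ (hu n) _ (hR (hu n))
  have h2 : F (Ψ (R (K M))) - F (Ψ (R 0)) ≤ J * e := by
    rw [← map_sub]
    refine (hFle _).trans (mul_le_mul_of_nonneg_left ?_ hJ)
    have h3 := hΘ.lip _ (hKC M le_rfl) _ h0
    rw [sub_zero] at h3
    have h4 : W * ‖K M‖ ≤ e := by
      have := norm_nonneg (K M)
      nlinarith only [hW0, hKM, hW1, he0]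
    exact h3.trans h4
  have h3 := hdsum M
  have h4 : (J - c') * W + J * (W * ‖R (u n) - u n‖) ≤ (J - c) * W := by
    have h5 := mul_le_mul_of_nonneg_left hc hW0
    nlinarith only [h5]
  linarith

end Vale.Agent.P079.H709
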