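import Vale.Agent.P079.H709.Step

set_option linter.all false

open Filter Topology Set

namespace Vale.Agent.P079.H709

/-- Thinning lemma: if every valid list has cofinitely many valid extensions, then some sequence
has all its decreasing lists valid. -/
theorem exists_thin (V : List ℕ → Prop) (h0 : V [])
    (hext : ∀ l, V l → ∀ᶠ n in atTop, V (n :: l)) :
    ∃ m : ℕ → ℕ, StrictMono m ∧ ∀ l : List ℕ, l.Pairwise (· > ·) → V (l.map m) := by
  classical
  let P : ℕ → List ℕ → Prop := fun _ s => ∀ l, l.Sublist s → V l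
  let r : ℕ → List ℕ → List ℕ → Prop := fun _ s s' => ∃ n, (∀ x ∈ s, x < n) ∧ s' = n :: s
  obtain ⟨f, hf0, hfP, hfr⟩ := exists_seq_dep P r [] (by
    intro l hl
    rw [List.sublist_nil.1 hl]
    exact h0) (by
    intro i s hs
    have h1 : ∀ᶠ n in atTop, ∀ l ∈ s.sublists.toFinset, V (n :: l) := by
      rw [Filter.eventually_all_finset]
      intro l hl
      rw [List.mem_toFinset, List.mem_sublists] at hl
      exact hext l (hs l hl)
    have h2 : ∀ᶠ n in atTop, ∀ x ∈ s.toFinset, x < n := by
      rw [Filter.eventually_all_finset]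
      intro x _
      exact eventually_gt_atTop x
    obtain ⟨n, hn1, hn2⟩ := (h1.and h2).exists
    refine ⟨n :: s, ?_, n, fun x hx => hn2 x (List.mem_toFinset.2 hx), rfl⟩
    intro l hl
    rcases List.sublist_cons_iff.1 hl with h | ⟨l', rfl, h⟩
    · exact hs l h
    · exact hn1 l' (by rw [List.mem_toFinset, List.mem_sublists]; exact h))
  choose m hm1 hm2 using hfr
  have hmono : StrictMono m := by
    refine strictMono_nat_of_lt_succ fun i => ?_
    refine hm1 (i + 1) _ ?_
    rw [hm2 i]
    exact List.mem_cons_self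
  refine ⟨m, hmono, ?_⟩
  have key : ∀ j : ℕ, ∀ l : List ℕ, l.Pairwise (· > ·) → (∀ a ∈ l, a < j) →
      (l.map m).Sublist (f j) := by
    intro j
    induction j with
    | zero =>
      intro l _ hl
      cases l with
      | nil => simp
      | cons a t => exact absurd (hl a List.mem_cons_self) (by omega)
    | succ j ih =>
      intro l hlp hl
      rw [hm2 j]
      cases l with
      | nil => simp
      | cons a t =>
        rw [List.pairwise_cons] at hlp
        rcases Nat.lt_succ_iff_lt_or_eq.1 (hl a List.mem_cons_self) with h | h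
        · refine List.Sublist.cons _ (ih (a :: t) (List.pairwise_cons.2 hlp) ?_)
          intro b hb
          rcases List.mem_cons.1 hb with rfl | hb
          · exact h
          · exact lt_trans (hlp.1 b hb) h
        · rw [List.map_cons, h]
          refine List.Sublist.cons_cons _ (ih t hlp.2 ?_)
          intro b hb
          rw [← h]
          exact hlp.1 b hb
  intro l hl
  cases l with
  | nil => exact h0
  | cons a t =>
    refine hfP (a + 1) _ (key (a + 1) _ hl ?_)
    intro b hb
    rcases List.mem_cons.1 hb with rfl | hb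
    · exact Nat.lt_succ_self _
    · exact lt_trans ((List.pairwise_cons.1 hl).1 b hb) (Nat.lt_succ_self _)

/-- Indices realizing a given sign pattern on the odd places by an alternating list. -/
def pat (θ : ℕ → Bool) : ℕ → List ℕ
  | 0 => [1, 0]
  | i + 1 => if θ (i + 1) = θ i then (2 * i + 3) :: (2 * i + 2) :: pat θ i
      else (2 * i + 3) :: pat θ i

theorem pat_head (θ : ℕ → Bool) (N : ℕ) : ∃ t, pat θ N = (2 * N + 1) :: t := by
  cases N with
  | zero => exact ⟨[0], rfl⟩
  | succ N =>
    rw [pat]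
    split_ifs
    · exact ⟨_, rfl⟩
    · exact ⟨_, rfl⟩

theorem pat_lt (θ : ℕ → Bool) (N : ℕ) : ∀ a ∈ pat θ N, a < 2 * N + 2 := by
  induction N with
  | zero =>
    intro a ha
    simp [pat] at ha
    omega
  | succ N ih =>
    intro a ha
    rw [pat] at ha
    split_ifs at ha
    · rcases List.mem_cons.1 ha with rfl | ha
      · omega
      rcases List.mem_cons.1 ha with rfl | ha
      · omega
      have := ih a ha
      omega
    · rcases List.mem_cons.1 ha with rfl | ha
      · omega
      have := ih a ha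
      omega

theorem pat_pairwise (θ : ℕ → Bool) (N : ℕ) : (pat θ N).Pairwise (· > ·) := by
  induction N with
  | zero => simp [pat]
  | succ N ih =>
    rw [pat]
    split_ifs
    · rw [List.pairwise_cons, List.pairwise_cons]
      refine ⟨?_, ?_, ih⟩
      · intro a ha
        rcases List.mem_cons.1 ha with rfl | ha
        · show 2 * N + 3 > 2 * N + 2
          omega
        · have := pat_lt θ N a ha
          show 2 * N + 3 > a
          omega
      · intro a ha
        have := pat_lt θ N a ha
        show 2 * N + 2 > a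
        omega
    · rw [List.pairwise_cons]
      refine ⟨?_, ih⟩
      intro a ha
      have := pat_lt θ N a ha
      show 2 * N + 3 > a
      omega

variable {X : Type*} [NormedAddCommGroup X] [NormedSpace ℝ X]

/-- Alternating sums of functionals along a list; the first entry has sign `+`. -/
noncomputable def alt (φ : ℕ → StrongDual ℝ X) : List ℕ → StrongDual ℝ X
  | [] => 0
  | n :: l => φ n - alt φ l

theorem alt_norm (φ : ℕ → StrongDual ℝ X) (hφ : ∀ n, ‖φ n‖ ≤ 1) (l : List ℕ) :
    ‖alt φ l‖ ≤ l.length := by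
  induction l with
  | nil => simp [alt]
  | cons n l ih =>
    rw [alt, List.length_cons]
    push_cast
    calc ‖φ n - alt φ l‖ ≤ ‖φ n‖ + ‖alt φ l‖ := norm_sub_le _ _
      _ ≤ 1 + l.length := add_le_add (hφ n) ih
      _ = l.length + 1 := add_comm _ _

theorem alt_le (φ : ℕ → StrongDual ℝ X) (hφ : ∀ n, ‖φ n‖ ≤ 1) (l : List ℕ) {g : X}
    (hg : ‖g‖ ≤ 1) : alt φ l g ≤ l.length := by
  have h1 := (alt φ l).le_opNorm g
  have h2 := alt_norm φ hφ l
  have h3 : alt φ l g ≤ ‖alt φ l g‖ := le_abs_self _
  have h4 : ‖alt φ l‖ * ‖g‖ ≤ ‖alt φ l‖ * 1 := mul_le_mul_of_nonneg_left hg (norm_nonneg _)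
  linarith

theorem phi_le (φ : ℕ → StrongDual ℝ X) (hφ : ∀ n, ‖φ n‖ ≤ 1) (n : ℕ) {g : X}
    (hg : ‖g‖ ≤ 1) : φ n g ≤ 1 := by
  have h1 := (φ n).le_opNorm g
  have h3 : φ n g ≤ ‖φ n g‖ := le_abs_self _
  have h4 : ‖φ n‖ * ‖g‖ ≤ 1 * 1 := mul_le_mul (hφ n) hg (norm_nonneg _) zero_le_one
  linarith

theorem alt_split (φ : ℕ → StrongDual ℝ X) (hφ : ∀ n, ‖φ n‖ ≤ 1) {n : ℕ} {l : List ℕ} {g : X}
    (hg : ‖g‖ ≤ 1) {ε : ℝ} (h : ((n :: l).length : ℝ) - ε < alt φ (n :: l) g) :
    1 - ε < φ n g ∧ (l.length : ℝ) - ε < alt φ l (-g) := by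
  rw [alt, List.length_cons, sub_apply] at h
  push_cast at h
  have hng : ‖-g‖ ≤ 1 := by rwa [norm_neg]
  have h1 := alt_le φ hφ l hng
  have h2 := phi_le φ hφ n hg
  rw [map_neg] at h1 ⊢
  constructor <;> linarith

/-- Sign patterns from alternating lists. -/
theorem alt_pat (φ : ℕ → StrongDual ℝ X) (hφ : ∀ n, ‖φ n‖ ≤ 1) (m : ℕ → ℕ) (θ : ℕ → Bool)
    {ε : ℝ} (N : ℕ) : ∀ g : X, ‖g‖ ≤ 1 →
      (((pat θ N).map m).length : ℝ) - ε < alt φ ((pat θ N).map m) g →
      ∀ i ≤ N, 1 - ε < (if θ i = θ N then (1 : ℝ) else -1) * φ (m (2 * i + 1)) g := by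
  induction N with
  | zero =>
    intro g hg h i hi
    obtain rfl : i = 0 := by omega
    rw [if_pos rfl, one_mul]
    have h1 : (pat θ 0).map m = m 1 :: [m 0] := rfl
    rw [h1] at h
    exact (alt_split φ hφ hg h).1
  | succ N ih =>
    intro g hg h i hi
    have hng : ‖-g‖ ≤ 1 := by rwa [norm_neg]
    by_cases hθ : θ (N + 1) = θ N
    · have h1 : (pat θ (N + 1)).map m =
          m (2 * N + 3) :: m (2 * N + 2) :: (pat θ N).map m := by
        rw [pat, if_pos hθ]
        rfl
      rw [h1] at h
      obtain ⟨a1, a2⟩ := alt_split φ hφ hg h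
      obtain ⟨_, a3⟩ := alt_split φ hφ hng a2
      rw [neg_neg] at a3
      rcases Nat.lt_succ_iff_lt_or_eq.1 (Nat.lt_succ_of_le hi) with hlt | rfl
      · have := ih g hg a3 i (by omega)
        rw [hθ]
        exact this
      · rw [if_pos rfl, one_mul, show 2 * (N + 1) + 1 = 2 * N + 3 by ring]
        exact a1
    · have h1 : (pat θ (N + 1)).map m = m (2 * N + 3) :: (pat θ N).map m := by
        rw [pat, if_neg hθ]
        rfl
      rw [h1] at h
      obtain ⟨a1, a2⟩ := alt_split φ hφ hg h
      rcases Nat.lt_succ_iff_lt_or_eq.1 (Nat.lt_succ_of_le hi) with hlt | rfl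
      · have := ih (-g) hng a2 i (by omega)
        rw [map_neg] at this
        by_cases h2 : θ i = θ N
        · rw [if_pos h2] at this
          have h3 : θ i ≠ θ (N + 1) := by rw [h2]; exact fun h => hθ h.symm
          rw [if_neg h3]
          linarith
        · rw [if_neg h2] at this
          have h3 : θ i = θ (N + 1) := by
            cases hi' : θ i <;> cases hN' : θ N <;> cases hN1 : θ (N + 1) <;> simp_all
          rw [if_pos h3]
          linarith
      · rw [if_pos rfl, one_mul, show 2 * (N + 1) + 1 = 2 * N + 3 by ring]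
        exact a1

end Vale.Agent.P079.H709
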