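import Vale.Agent.P079.H709.Core
import Mathlib.Analysis.LocallyConvex.WeakSpace
import Mathlib.Analysis.Normed.Operator.BanachSteinhaus

set_option linter.all false

open Filter Topology Set

namespace Vale.Agent.P079.H709

variable {X : Type*} [NormedAddCommGroup X] [NormedSpace ℝ X]

/-- Functionals are weakly continuous. -/
theorem continuous_weak (f : StrongDual ℝ X) :
    Continuous fun w : WeakSpace ℝ X => f ((toWeakSpace ℝ X).symm w) :=
  WeakBilin.eval_continuous (topDualPairing ℝ X).flip f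

/-- Weak limits along ultrafilters in a weakly compact set. -/
theorem wcpt_limit {C : Set X} (hC : IsCompact (toWeakSpace ℝ X '' C)) {ι : Type*}
    (U : Ultrafilter ι) (x : ι → X) (hx : ∀ i, x i ∈ C) :
    ∃ g ∈ C, ∀ f : StrongDual ℝ X, Tendsto (fun i => f (x i)) U (𝓝 (f g)) := by
  obtain ⟨_, ⟨g, hg, rfl⟩, hle⟩ :=
    hC.ultrafilter_le_nhds (U.map (fun i => toWeakSpace ℝ X (x i))) (by
      rw [le_principal_iff, Ultrafilter.coe_map, Filter.mem_map]
      exact Filter.Eventually.of_forall fun i => mem_image_of_mem _ (hx i))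
  refine ⟨g, hg, fun f => ?_⟩
  have h1 : Tendsto (fun i => toWeakSpace ℝ X (x i)) U (𝓝 (toWeakSpace ℝ X g)) := hle
  exact ((continuous_weak f).tendsto _).comp h1

/-- Weakly compact sets are norm bounded. -/
theorem wcpt_bounded {C : Set X} (hC : IsCompact (toWeakSpace ℝ X '' C)) :
    Bornology.IsBounded C := by
  have h1 : ∀ f : StrongDual ℝ X, ∃ B, ∀ x : C, ‖NormedSpace.inclusionInDoubleDual ℝ X x.1 f‖ ≤ B := by
    intro f
    have h2 := (hC.image (continuous_weak f)).isBounded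
    obtain ⟨B, hB⟩ := h2.exists_norm_le
    refine ⟨B, fun x => ?_⟩
    rw [NormedSpace.dual_def]
    refine hB _ ⟨_, mem_image_of_mem _ x.2, ?_⟩
    simp
  obtain ⟨B, hB⟩ := banach_steinhaus h1
  rw [isBounded_iff_forall_norm_le]
  refine ⟨B, fun x hx => ?_⟩
  have h3 := hB ⟨x, hx⟩
  have h4 : ‖NormedSpace.inclusionInDoubleDual ℝ X x‖ = ‖x‖ :=
    (NormedSpace.inclusionInDoubleDualLi ℝ (E := X)).norm_map x
  rw [← h4]
  exact h3

/-- Weakly compact sets are norm closed. -/
theorem wcpt_closed {C : Set X} (hC : IsCompact (toWeakSpace ℝ X '' C)) : IsClosed C := by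
  have h1 := hC.isClosed.preimage (toWeakSpaceCLM ℝ X).continuous
  have h2 : (toWeakSpaceCLM ℝ X) ⁻¹' (toWeakSpace ℝ X '' C) = C := by
    ext x
    constructor
    · rintro ⟨y, hy, hxy⟩
      have : y = x := (toWeakSpace ℝ X).injective hxy
      rwa [← this]
    · intro hx
      exact ⟨x, hx, rfl⟩
  rwa [h2] at h1

/-- Closed convex subsets of weakly compact sets are weakly compact. -/
theorem wcpt_mono {C K : Set X} (hC : IsCompact (toWeakSpace ℝ X '' C)) (hKC : K ⊆ C)
    (hcl : IsClosed K) (hco : Convex ℝ K) : IsCompact (toWeakSpace ℝ X '' K) := by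
  refine hC.of_isClosed_subset ?_ (image_mono hKC)
  rw [← hcl.closure_eq, hco.toWeakSpace_closure ℝ]
  exact isClosed_closure

/-- A chain of nonempty closed convex subsets of a bounded set has nonempty intersection. -/
theorem chain_inter {C : Set X} (hC : IsCompact (toWeakSpace ℝ X '' C)) (S : Set (Set X)) (hS : IsChain (· ⊆ ·) S)
    (hne : S.Nonempty) (hSC : ∀ s ∈ S, s ⊆ C) (hSn : ∀ s ∈ S, s.Nonempty)
    (hScl : ∀ s ∈ S, IsClosed s) (hSco : ∀ s ∈ S, Convex ℝ s) : (⋂₀ S).Nonempty := by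
  have hp : ∀ s : S, ∃ p : X, p ∈ s.1 := fun s => hSn s.1 s.2
  choose p hp using hp
  have : Nonempty S := hne.to_subtype
  have : IsCodirectedOrder S := by
    refine ⟨fun a b => ?_⟩
    rcases hS.total a.2 b.2 with h | h
    · exact ⟨a, le_rfl, h⟩
    · exact ⟨b, h, le_rfl⟩
  let U : Ultrafilter S := Ultrafilter.of atBot
  obtain ⟨g, -, hg⟩ := wcpt_limit hC U p (fun s => hSC s.1 s.2 (hp s))
  refine ⟨g, ?_⟩
  rw [Set.mem_sInter]
  intro t ht
  refine weak_limit_mem hg (hSco t ht) (hScl t ht) ?_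
  have h1 : ∀ᶠ s : S in atBot, s ≤ (⟨t, ht⟩ : S) := eventually_le_atBot _
  have h2 : ∀ᶠ s : S in (U : Filter S), s ≤ (⟨t, ht⟩ : S) := h1.filter_mono (Ultrafilter.of_le _)
  filter_upwards [h2] with s hs
  exact hs (hp s)

/-- Weakly convergent subsequences in separable closed convex bounded sets. -/
theorem exists_wsubseq {C0 : Set X} (hC0 : IsCompact (toWeakSpace ℝ X '' C0))
    {C : Set X} (hCC0 : C ⊆ C0) (hcl : IsClosed C) (hco : Convex ℝ C)
    (hsep : TopologicalSpace.IsSeparable C) (x : ℕ → X) (hx : ∀ n, x n ∈ C) :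
    ∃ v ∈ C, ∃ ψ : ℕ → ℕ, StrictMono ψ ∧
      ∀ f : StrongDual ℝ X, Tendsto (fun n => f (x (ψ n))) atTop (𝓝 (f v)) := by
  obtain ⟨v, -, hv⟩ := wcpt_limit hC0 (hyperfilter ℕ) x (fun n => hCC0 (hx n))
  have hvC : v ∈ C := weak_limit_mem hv hco hcl (Filter.Eventually.of_forall hx)
  -- countable norming family
  have hspan : TopologicalSpace.IsSeparable (Submodule.span ℝ C : Set X) := hsep.span
  obtain ⟨D, hDc, hD⟩ := hspan
  have hDne : D.Nonempty := by
    rcases D.eq_empty_or_nonempty with h | h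
    · exfalso
      rw [h, closure_empty] at hD
      exact hD (Submodule.zero_mem (Submodule.span ℝ C))
    · exact h
  obtain ⟨c, hc⟩ := hDc.exists_eq_range hDne
  have hfc : ∀ l, ∃ f : StrongDual ℝ X, ‖f‖ ≤ 1 ∧ f (c l) = ‖c l‖ := by
    intro l
    obtain ⟨f, hf1, hf2⟩ := exists_dual_vector'' ℝ (c l)
    exact ⟨f, hf1, by simpa using hf2⟩
  choose F hF1 hF2 using hfc
  have hfreq : ∀ n, ∃ᶠ m in atTop, ∀ l ∈ Finset.range (n + 1), |F l (x m) - F l v| < 1 / ((n : ℝ) + 1) := by
    intro n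
    have h1 : ∀ᶠ m in (hyperfilter ℕ : Filter ℕ), ∀ l ∈ Finset.range (n + 1),
        |F l (x m) - F l v| < 1 / ((n : ℝ) + 1) := by
      rw [Filter.eventually_all_finset]
      intro l _
      have h2 := (hv (F l))
      have h3 := Metric.tendsto_nhds.1 h2 (1 / ((n : ℝ) + 1)) (by (clear * -; positivity))
      filter_upwards [h3] with m hm
      rwa [Real.dist_eq] at hm
    have h4 : ∃ᶠ m in (hyperfilter ℕ : Filter ℕ), ∀ l ∈ Finset.range (n + 1),
        |F l (x m) - F l v| < 1 / ((n : ℝ) + 1) := h1.frequently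
    exact h4.filter_mono (Nat.hyperfilter_le_atTop)
  obtain ⟨ψ, hψ, hψP⟩ := Filter.extraction_forall_of_frequently hfreq
  have hFψ : ∀ l, Tendsto (fun n => F l (x (ψ n))) atTop (𝓝 (F l v)) := by
    intro l
    rw [tendsto_iff_norm_sub_tendsto_zero]
    refine squeeze_zero' (Filter.Eventually.of_forall fun n => norm_nonneg _) ?_
      (tendsto_one_div_add_atTop_nhds_zero_nat (𝕜 := ℝ))
    filter_upwards [eventually_ge_atTop l] with n hn
    rw [Real.norm_eq_abs]
    exact (hψP n l (Finset.mem_range.2 (by omega))).le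
  refine ⟨v, hvC, ψ, hψ, fun f => ?_⟩
  rw [tendsto_iff_ultrafilter]
  intro U hU
  obtain ⟨g, -, hg⟩ := wcpt_limit hC0 U (fun n => x (ψ n)) (fun n => hCC0 (hx _))
  have hgC : g ∈ C := weak_limit_mem hg hco hcl (Filter.Eventually.of_forall fun n => hx _)
  have hgv : g = v := by
    have hFg : ∀ l, F l g = F l v := fun l =>
      tendsto_nhds_unique (hg (F l)) ((hFψ l).mono_left hU)
    have hmem : g - v ∈ closure D := hD (Submodule.sub_mem _ (Submodule.subset_span hgC)
      (Submodule.subset_span hvC))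
    rw [← sub_eq_zero, ← norm_le_zero_iff]
    refine le_of_forall_pos_le_add fun ε hε => ?_
    obtain ⟨y, hyD, hy⟩ := Metric.mem_closure_iff.1 hmem (ε / 2) (by linarith)
    rw [hc] at hyD
    obtain ⟨l, rfl⟩ := hyD
    rw [dist_eq_norm] at hy
    have h1 : ‖c l‖ ≤ ε / 2 := by
      rw [← hF2 l]
      have h2 : F l (c l) = F l (c l - (g - v)) := by
        rw [map_sub, map_sub, hFg l, sub_self, sub_zero]
      rw [h2]
      calc F l (c l - (g - v)) ≤ ‖F l (c l - (g - v))‖ := le_abs_self _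
        _ ≤ ‖F l‖ * ‖c l - (g - v)‖ := (F l).le_opNorm _
        _ ≤ 1 * (ε / 2) := by
          refine mul_le_mul (hF1 l) ?_ (norm_nonneg _) zero_le_one
          rw [norm_sub_rev]
          exact hy.le
        _ = ε / 2 := one_mul _
    calc ‖g - v‖ = ‖(g - v - c l) + c l‖ := by rw [sub_add_cancel]
      _ ≤ ‖g - v - c l‖ + ‖c l‖ := norm_add_le _ _
      _ ≤ ε / 2 + ε / 2 := add_le_add hy.le h1
      _ = 0 + ε := by ring
  rw [← hgv]
  exact hg f

theorem exists_minInv {C0 : Set X} (hC0 : IsCompact (toWeakSpace ℝ X '' C0))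
    {C : Set X} (hCC0 : C ⊆ C0) (hcl : IsClosed C) (hco : Convex ℝ C)
    (hne : C.Nonempty) {T : X → X} (hTm : MapsTo T C C) :
    ∃ K ⊆ C, MinInv T K := by
  let S : Set (Set X) := {D | D ⊆ C ∧ D.Nonempty ∧ IsClosed D ∧ Convex ℝ D ∧ MapsTo T D D}
  obtain ⟨K, hKC, hK⟩ := zorn_superset_nonempty S (by
    intro c hcS hc hcne
    refine ⟨⋂₀ c, ⟨?_, ?_, ?_, ?_, ?_⟩, fun s hs => Set.sInter_subset_of_mem hs⟩
    · obtain ⟨s, hs⟩ := hcne
      exact (Set.sInter_subset_of_mem hs).trans (hcS hs).1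
    · exact chain_inter hC0 c hc hcne (fun s hs => (hcS hs).1.trans hCC0)
        (fun s hs => (hcS hs).2.1) (fun s hs => (hcS hs).2.2.1) (fun s hs => (hcS hs).2.2.2.1)
    · exact isClosed_sInter fun s hs => (hcS hs).2.2.1
    · exact convex_sInter fun s hs => (hcS hs).2.2.2.1
    · intro x hx
      rw [Set.mem_sInter] at hx ⊢
      intro s hs
      exact (hcS hs).2.2.2.2 (hx s hs)) C ⟨Subset.rfl, hne, hcl, hco, hTm⟩
  refine ⟨K, hKC, ⟨hK.prop.2.1, hK.prop.2.2.1, hK.prop.2.2.2.1, hK.prop.2.2.2.2, ?_⟩⟩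
  intro D hDK hDne hDcl hDco hDT
  refine Subset.antisymm hDK ?_
  exact hK.le_of_le ⟨hDK.trans hKC, hDne, hDcl, hDco, hDT⟩ hDK

/-- Goebel-Karlovitz: in a minimal set the distances from an approximate fixed point sequence to
any point tend to the diameter. -/
theorem goebel_karlovitz {C0 : Set X} (hC0 : IsCompact (toWeakSpace ℝ X '' C0))
    {K : Set X} (hKC0 : K ⊆ C0) {T : X → X} (hK : MinInv T K) (hb : Bornology.IsBounded K)
    (hT : ∀ x ∈ K, ∀ y ∈ K, ‖T x - T y‖ ≤ ‖x - y‖) (x : ℕ → X) (hx : ∀ n, x n ∈ K)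
    (hxT : Tendsto (fun n => ‖T (x n) - x n‖) atTop (𝓝 0)) {v : X} (hv : v ∈ K) :
    Tendsto (fun n => ‖x n - v‖) atTop (𝓝 (Metric.diam K)) := by
  have hle : ∀ a ∈ K, ∀ b ∈ K, ‖a - b‖ ≤ Metric.diam K := by
    intro a ha b hb'
    rw [← dist_eq_norm]
    exact Metric.dist_le_diam_of_mem hb ha hb'
  rw [tendsto_iff_ultrafilter]
  intro U hU
  -- the limits exist
  have hlim : ∀ z ∈ K, ∃ a : ℝ, Tendsto (fun n => ‖x n - z‖) U (𝓝 a) := by
    intro z hz
    have hcomp : IsCompact (Set.Icc (0 : ℝ) (Metric.diam K)) := isCompact_Icc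
    obtain ⟨a, _, ha⟩ := hcomp.ultrafilter_le_nhds (U.map (fun n => ‖x n - z‖)) (by
      rw [le_principal_iff, Ultrafilter.coe_map, Filter.mem_map]
      exact Filter.Eventually.of_forall fun n => ⟨norm_nonneg _, hle _ (hx n) _ hz⟩)
    exact ⟨a, ha⟩
  obtain ⟨r, hr⟩ := hlim v hv
  -- all limits are at most `r`
  have hTU : Tendsto (fun n => ‖T (x n) - x n‖) U (𝓝 0) := hxT.mono_left hU
  have hD : {z | z ∈ K ∧ ∀ ε > 0, ∀ᶠ n in (U : Filter ℕ), ‖x n - z‖ ≤ r + ε} = K := by
    refine hK.min _ (fun z hz => hz.1) ⟨v, hv, ?_⟩ ?_ ?_ ?_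
    · intro ε hε
      filter_upwards [hr.eventually (gt_mem_nhds (show r < r + ε by linarith only [hε]))] with n hn
      exact hn.le
    · rw [← isSeqClosed_iff_isClosed]
      intro y p hy hyp
      refine ⟨hK.cl.mem_of_tendsto hyp (Filter.Eventually.of_forall fun n => (hy n).1), ?_⟩
      intro ε hε
      obtain ⟨N, hN⟩ := Metric.tendsto_atTop.1 hyp (ε / 2) (by linarith only [hε])
      have h1 := hN N le_rfl
      rw [dist_eq_norm] at h1
      filter_upwards [(hy N).2 (ε / 2) (by linarith only [hε])] with n hn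
      calc ‖x n - p‖ = ‖(x n - y N) + (y N - p)‖ := by rw [sub_add_sub_cancel]
        _ ≤ ‖x n - y N‖ + ‖y N - p‖ := norm_add_le _ _
        _ ≤ (r + ε / 2) + ε / 2 := add_le_add hn h1.le
        _ = r + ε := by ring
    · intro y hy z hz a b ha hb' hab
      refine ⟨hK.co hy.1 hz.1 ha hb' hab, fun ε hε => ?_⟩
      filter_upwards [hy.2 ε hε, hz.2 ε hε] with n hn hn'
      have h1 : x n - (a • y + b • z) = a • (x n - y) + b • (x n - z) := by
        have h2 : x n = a • x n + b • x n := by rw [← add_smul, hab, one_smul]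
        calc x n - (a • y + b • z) = (a • x n + b • x n) - (a • y + b • z) := by rw [← h2]
          _ = a • (x n - y) + b • (x n - z) := by rw [smul_sub, smul_sub]; abel
      rw [h1]
      calc ‖a • (x n - y) + b • (x n - z)‖ ≤ ‖a • (x n - y)‖ + ‖b • (x n - z)‖ := norm_add_le _ _
        _ = a * ‖x n - y‖ + b * ‖x n - z‖ := by
          rw [norm_smul, norm_smul, Real.norm_of_nonneg ha, Real.norm_of_nonneg hb']
        _ ≤ a * (r + ε) + b * (r + ε) :=
          add_le_add (mul_le_mul_of_nonneg_left hn ha) (mul_le_mul_of_nonneg_left hn' hb')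
        _ = r + ε := by rw [← add_mul, hab, one_mul]
    · intro z hz
      refine ⟨hK.maps hz.1, fun ε hε => ?_⟩
      filter_upwards [hz.2 (ε / 2) (by linarith),
        hTU.eventually (gt_mem_nhds (show (0 : ℝ) < ε / 2 by linarith only [hε]))] with n hn hn'
      calc ‖x n - T z‖ = ‖(T (x n) - T z) - (T (x n) - x n)‖ := by congr 1; abel
        _ ≤ ‖T (x n) - T z‖ + ‖T (x n) - x n‖ := norm_sub_le _ _
        _ ≤ (r + ε / 2) + ε / 2 := add_le_add ((hT _ (hx n) _ hz.1).trans hn) hn'.le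
        _ = r + ε := by ring
  have hall : ∀ z ∈ K, ∀ ε > 0, ∀ᶠ n in (U : Filter ℕ), ‖x n - z‖ ≤ r + ε := by
    intro z hz
    rw [← hD] at hz
    exact hz.2
  -- the weak limit is a point with small radius
  obtain ⟨g, -, hg⟩ := wcpt_limit hC0 U x (fun n => hKC0 (hx n))
  have hgK : g ∈ K := weak_limit_mem hg hK.co hK.cl (Filter.Eventually.of_forall hx)
  have hgr : ∀ z ∈ K, ‖g - z‖ ≤ r := by
    intro z hz
    refine le_of_forall_pos_le_add fun ε hε => ?_
    have h2 : g ∈ Metric.closedBall z (r + ε) := by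
      refine weak_limit_mem hg (convex_closedBall z (r + ε)) Metric.isClosed_closedBall ?_
      filter_upwards [hall z hz ε hε] with n hn
      rw [mem_closedBall_iff_norm]
      exact hn
    rwa [mem_closedBall_iff_norm] at h2
  have hW : {w | w ∈ K ∧ ∀ z ∈ K, ‖w - z‖ ≤ r} = K := by
    refine hK.min _ (fun z hz => hz.1) ⟨g, hgK, hgr⟩ ?_ ?_ ?_
    · have h1 : {w | w ∈ K ∧ ∀ z ∈ K, ‖w - z‖ ≤ r} = K ∩ ⋂ z ∈ K, Metric.closedBall z r := by
        ext w
        simp only [Set.mem_ofPred_eq, Set.mem_inter_iff, Set.mem_iInter, mem_closedBall_iff_norm]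
      rw [h1]
      exact hK.cl.inter (isClosed_biInter fun z _ => Metric.isClosed_closedBall)
    · have h1 : {w | w ∈ K ∧ ∀ z ∈ K, ‖w - z‖ ≤ r} = K ∩ ⋂ z ∈ K, Metric.closedBall z r := by
        ext w
        simp only [Set.mem_ofPred_eq, Set.mem_inter_iff, Set.mem_iInter, mem_closedBall_iff_norm]
      rw [h1]
      exact hK.co.inter (convex_iInter fun z => convex_iInter fun _ => convex_closedBall z r)
    · intro w hw
      refine ⟨hK.maps hw.1, ?_⟩
      have hE : K ∩ Metric.closedBall (T w) r = K := by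
        refine hK.min _ Set.inter_subset_left ?_ (hK.cl.inter Metric.isClosed_closedBall)
          (hK.co.inter (convex_closedBall _ _)) ?_
        · obtain ⟨z, hz⟩ := hK.ne
          refine ⟨T z, hK.maps hz, ?_⟩
          rw [mem_closedBall_iff_norm, norm_sub_rev]
          exact (hT _ hw.1 _ hz).trans (hw.2 z hz)
        · intro z hz
          refine ⟨hK.maps hz.1, ?_⟩
          rw [mem_closedBall_iff_norm, norm_sub_rev]
          exact (hT _ hw.1 _ hz.1).trans (hw.2 z hz.1)
      intro z hz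
      rw [← hE] at hz
      have h1 := hz.2
      rwa [mem_closedBall_iff_norm, norm_sub_rev] at h1
  have hrd : r = Metric.diam K := by
    refine le_antisymm ?_ ?_
    · exact le_of_tendsto hr (Filter.Eventually.of_forall fun n => hle _ (hx n) _ hv)
    · refine Metric.diam_le_of_forall_dist_le ?_ ?_
      · exact ge_of_tendsto hr (Filter.Eventually.of_forall fun n => norm_nonneg _)
      · intro a ha b hb'
        rw [← hW] at ha
        rw [dist_eq_norm]
        exact ha.2 b hb'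
  rw [← hrd]
  exact hr

end Vale.Agent.P079.H709
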